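import Mathlib
import Vale.Agent.P100.Compare

/-!
# The mean value identity with potential

`U x · ∫ avgW = avg U x R + potT R (-ΔU) x`. Both terms on the right gain derivatives: the average
is `C²` for continuous `U`, the potential term is `C¹` for continuous and `C²` for `C¹` data.
So the identity passes to pointwise limits and carries their regularity.
-/

open MeasureTheory Filter Topology Set Metric
open scoped InnerProductSpace

namespace Vale.Agent.P100.Weighted

variable {n : ℕ}

/-- The potential term of the mean value identity. -/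
noncomputable def potT (R : ℝ) (f : EuclideanSpace ℝ (Fin n) → ℝ)
    (x : EuclideanSpace ℝ (Fin n)) : ℝ :=
  ∫ s in (0 : ℝ)..R, s * ∫ y, f (x + s • y) * avgPot y

theorem contDiff_one_pos_pow (k : ℕ) : ContDiff ℝ 1 fun t : ℝ => max t 0 ^ (k + 2) := by
  have hd : ∀ t : ℝ, HasDerivAt (fun s => max s 0 ^ (k + 2))
      (((k + 2 : ℕ) : ℝ) * max t 0 ^ (k + 1)) t := fun t => by
    have h := hasDerivAt_comp_pos (g := fun s => s ^ (k + 2))
      (g' := fun s => ((k + 2 : ℕ) : ℝ) * s ^ (k + 1))
      (fun s => by simpa using hasDerivAt_pow (k + 2) s) (by simp) t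
    simpa using h
  refine contDiff_one_iff_deriv.2 ⟨fun t => (hd t).differentiableAt, ?_⟩
  rw [funext fun t => (hd t).deriv]
  fun_prop

theorem contDiff_two_avgW : ContDiff ℝ 2 (avgW : EuclideanSpace ℝ (Fin n) → ℝ) := by
  have hd : ∀ t : ℝ, HasDerivAt (fun s => max s 0 ^ 3) (3 * max t 0 ^ 2) t := fun t => by
    simpa using hasDerivAt_comp_pos (g := fun s => s ^ 3) (g' := fun s => 3 * s ^ 2)
      (fun s => by simpa using hasDerivAt_pow 3 s) (by simp) t
  have h2 : ContDiff ℝ 2 fun t : ℝ => max t 0 ^ 3 := by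
    rw [show (2 : WithTop ℕ∞) = 1 + 1 from rfl, contDiff_succ_iff_deriv]
    refine ⟨fun t => (hd t).differentiableAt, fun h => absurd h (by decide), ?_⟩
    rw [funext fun t => (hd t).deriv]
    exact contDiff_const.mul (contDiff_one_pos_pow 0)
  exact h2.comp (contDiff_const.sub (contDiff_norm_sq ℝ))

theorem contDiff_one_avgPot : ContDiff ℝ 1 (avgPot : EuclideanSpace ℝ (Fin n) → ℝ) :=
  ((contDiff_one_pos_pow 2).comp (contDiff_const.sub (contDiff_norm_sq ℝ))).div_const _

section kernel

variable {F : Type*} [NormedAddCommGroup F] [NormedSpace ℝ F]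

theorem integrable_smul_kernel {f : EuclideanSpace ℝ (Fin n) → ℝ}
    {ψ : EuclideanSpace ℝ (Fin n) → F} (hf : Continuous f) (hψ : Continuous ψ)
    (hc : HasCompactSupport ψ) (x : EuclideanSpace ℝ (Fin n)) (s : ℝ) :
    Integrable fun y => f (x + s • y) • ψ y :=
  (show Continuous fun y => f (x + s • y) • ψ y by fun_prop).integrable_of_hasCompactSupport
    hc.smul_left

theorem continuous_kernel {f : EuclideanSpace ℝ (Fin n) → ℝ}
    {ψ : EuclideanSpace ℝ (Fin n) → F} (hf : Continuous f) (hψ : Continuous ψ)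
    (hc : HasCompactSupport ψ) :
    Continuous fun p : EuclideanSpace ℝ (Fin n) × ℝ => ∫ y, f (p.1 + p.2 • y) • ψ y := by
  have e : (fun p : EuclideanSpace ℝ (Fin n) × ℝ => ∫ y, f (p.1 + p.2 • y) • ψ y) =
      fun p => ∫ y in tsupport ψ, f (p.1 + p.2 • y) • ψ y := funext fun p =>
    (setIntegral_eq_integral_of_forall_compl_eq_zero fun y hy => by
      rw [image_eq_zero_of_notMem_tsupport hy, smul_zero]).symm
  rw [e]
  exact continuous_parametric_integral_of_continuous
    (f := fun (p : EuclideanSpace ℝ (Fin n) × ℝ) y => f (p.1 + p.2 • y) • ψ y) (by fun_prop)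
    hc.isCompact

theorem norm_kernel_le {f : EuclideanSpace ℝ (Fin n) → ℝ} {ψ : EuclideanSpace ℝ (Fin n) → F}
    (hψ : Continuous ψ) (hc : HasCompactSupport ψ) (h1 : ∀ y, 1 < ‖y‖ → ψ y = 0)
    {x : EuclideanSpace ℝ (Fin n)} {s L : ℝ} (hb : ∀ y ∈ closedBall x |s|, |f y| ≤ L) :
    ‖∫ y, f (x + s • y) • ψ y‖ ≤ L * ∫ y, ‖ψ y‖ := by
  rw [← integral_const_mul]
  refine norm_integral_le_of_norm_le
    ((hψ.norm.integrable_of_hasCompactSupport hc.norm).const_mul L)
    (Eventually.of_forall fun y => ?_)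
  rw [norm_smul, Real.norm_eq_abs]
  by_cases hy : ‖y‖ ≤ 1
  · refine mul_le_mul_of_nonneg_right (hb _ ?_) (norm_nonneg _)
    rw [mem_closedBall, dist_eq_norm, add_sub_cancel_left, norm_smul, Real.norm_eq_abs]
    exact mul_le_of_le_one_right (abs_nonneg _) hy
  · simp [h1 y (lt_of_not_ge hy)]

/-- Change of variables in a kernel integral. -/
theorem integral_kernel {f : EuclideanSpace ℝ (Fin n) → ℝ} {ψ : EuclideanSpace ℝ (Fin n) → F}
    (x : EuclideanSpace ℝ (Fin n)) {s : ℝ} (hs : s ≠ 0) :
    ∫ z, f z • ψ (s⁻¹ • (z - x)) = |s ^ n| • ∫ y, f (x + s • y) • ψ y := by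
  have h1 : ∫ z, f z • ψ (s⁻¹ • (z - x)) = ∫ z, f (x + z) • ψ (s⁻¹ • z) := by
    rw [← integral_add_left_eq_self (fun z => f z • ψ (s⁻¹ • (z - x))) x]
    simp
  have h2 : (fun z => f (x + z) • ψ (s⁻¹ • z)) =
      fun z => (fun y => f (x + s • y) • ψ y) (s⁻¹ • z) := funext fun z => by
    simp [smul_smul, hs]
  rw [h1, h2]
  refine (Measure.integral_comp_smul volume (fun y => f (x + s • y) • ψ y) s⁻¹).trans ?_
  rw [finrank_euclideanSpace_fin, inv_pow, inv_inv]

end kernel

/-- A kernel integral of continuous data is differentiable in the centre. -/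
theorem hasFDerivAt_kernel {f φ : EuclideanSpace ℝ (Fin n) → ℝ} (hf : Continuous f)
    (hφ : ContDiff ℝ 1 φ) (hc : HasCompactSupport φ) {s : ℝ} (hs : s ≠ 0)
    (x₀ : EuclideanSpace ℝ (Fin n)) :
    HasFDerivAt (fun x => ∫ y, f (x + s • y) • φ y)
      (-(s⁻¹ • ∫ y, f (x₀ + s • y) • fderiv ℝ φ y)) x₀ := by
  have hdc : Continuous (fderiv ℝ φ) := hφ.continuous_fderiv one_ne_zero
  have hcd : HasCompactSupport (fderiv ℝ φ) := hc.fderiv ℝ
  obtain ⟨C, hC⟩ := hdc.bounded_above_of_compact_support hcd
  obtain ⟨r, hr⟩ := hc.isCompact.isBounded.subset_closedBall (0 : EuclideanSpace ℝ (Fin n))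
  set K := closedBall x₀ (|s| * r + 1) with hK
  have hint : ∀ {G : Type} [NormedAddCommGroup G] [NormedSpace ℝ G]
      (ψ : EuclideanSpace ℝ (Fin n) → G), Continuous ψ → HasCompactSupport ψ →
      ∀ x : EuclideanSpace ℝ (Fin n), Integrable fun z => f z • ψ (s⁻¹ • (z - x)) := by
    intro G _ _ ψ hψ hψc x
    have := (hψc.comp_homeomorph
      ((Homeomorph.subRight x).trans (Homeomorph.smulOfNeZero s⁻¹ (inv_ne_zero hs))))
    exact (show Continuous fun z => f z • ψ (s⁻¹ • (z - x)) by fun_prop
      ).integrable_of_hasCompactSupport this.smul_left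
  have hH : HasFDerivAt (fun x => ∫ z, f z • φ (s⁻¹ • (z - x)))
      (∫ z, f z • (-(s⁻¹ • fderiv ℝ φ (s⁻¹ • (z - x₀))))) x₀ := by
    refine hasFDerivAt_integral_of_dominated_of_fderiv_le
      (F := fun x z => f z • φ (s⁻¹ • (z - x)))
      (F' := fun x z => f z • (-(s⁻¹ • fderiv ℝ φ (s⁻¹ • (z - x)))))
      (bound := K.indicator fun z => |f z| * (|s⁻¹| * C)) (Metric.ball_mem_nhds x₀ one_pos)
      (Eventually.of_forall fun x => (hint φ hφ.continuous hc x).aestronglyMeasurable)
      (hint φ hφ.continuous hc x₀) ?_ (Eventually.of_forall fun z x hx => ?_)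
      ((integrable_indicator_iff measurableSet_closedBall).2
        ((hf.abs.mul continuous_const).continuousOn.integrableOn_compact
          (isCompact_closedBall _ _))) (Eventually.of_forall fun z x _ => ?_)
    · exact (show Continuous fun z => f z • (-(s⁻¹ • fderiv ℝ φ (s⁻¹ • (z - x₀)))) by fun_prop
        ).aestronglyMeasurable
    · by_cases hz : z ∈ K
      · rw [indicator_of_mem hz, norm_smul, norm_neg, norm_smul, Real.norm_eq_abs, Real.norm_eq_abs]
        gcongr
        exact hC _
      · have : fderiv ℝ φ (s⁻¹ • (z - x)) = 0 := by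
          refine image_eq_zero_of_notMem_tsupport fun h => hz ?_
          have h' := hr (tsupport_fderiv_subset ℝ h)
          rw [mem_closedBall, dist_zero_right, norm_smul, Real.norm_eq_abs, abs_inv,
            inv_mul_le_iff₀ (abs_pos.2 hs)] at h'
          rw [hK, mem_closedBall]
          rw [mem_ball] at hx
          linarith [dist_triangle z x x₀, dist_eq_norm z x]
        simp [indicator_of_notMem hz, this]
    · have h1 : HasFDerivAt (fun x : EuclideanSpace ℝ (Fin n) => s⁻¹ • (z - x))
          (s⁻¹ • -(ContinuousLinearMap.id ℝ (EuclideanSpace ℝ (Fin n)))) x :=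
        ((hasFDerivAt_id x).const_sub z).const_smul s⁻¹
      refine (((hφ.differentiable one_ne_zero) _).hasFDerivAt.comp x h1).const_smul (f z)
        |>.congr_fderiv ?_
      ext v
      simp
  have e : (fun x => ∫ y, f (x + s • y) • φ y) =
      fun x => |s ^ n|⁻¹ • ∫ z, f z • φ (s⁻¹ • (z - x)) := funext fun x => by
    rw [integral_kernel x hs, smul_smul, inv_mul_cancel₀ (by positivity), one_smul]
  rw [e]
  refine (hH.const_smul |s ^ n|⁻¹).congr_fderiv ?_
  have e2 : ∫ z, f z • (-(s⁻¹ • fderiv ℝ φ (s⁻¹ • (z - x₀)))) =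
      -(s⁻¹ • ∫ z, f z • fderiv ℝ φ (s⁻¹ • (z - x₀))) := by
    rw [← integral_smul, ← integral_neg]
    simp only [smul_neg, smul_comm (f _) s⁻¹]
  rw [e2, integral_kernel x₀ hs, smul_neg, smul_comm s⁻¹, smul_smul,
    inv_mul_cancel₀ (abs_ne_zero.2 (pow_ne_zero n hs)), one_smul]

theorem contDiff_kernel_one {f φ : EuclideanSpace ℝ (Fin n) → ℝ} (hf : Continuous f)
    (hφ : ContDiff ℝ 1 φ) (hc : HasCompactSupport φ) {s : ℝ} (hs : s ≠ 0) :
    ContDiff ℝ 1 fun x => ∫ y, f (x + s • y) • φ y := by
  refine contDiff_one_iff_fderiv.2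
    ⟨fun x => (hasFDerivAt_kernel hf hφ hc hs x).differentiableAt, ?_⟩
  rw [funext fun x => (hasFDerivAt_kernel hf hφ hc hs x).fderiv]
  exact (((continuous_kernel hf (hφ.continuous_fderiv one_ne_zero) (hc.fderiv ℝ)).comp
    (continuous_id.prodMk continuous_const)).const_smul s⁻¹).neg

/-! ### The average -/

/-- The average is twice continuously differentiable in the centre. -/
theorem contDiff_avg {U : EuclideanSpace ℝ (Fin n) → ℝ} (hU : Continuous U) {R : ℝ} (hR : 0 < R) :
    ContDiff ℝ 2 fun x => avg U x R := by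
  have hW1 : ContDiff ℝ 1 (avgW : EuclideanSpace ℝ (Fin n) → ℝ) :=
    contDiff_two_avgW.of_le (by norm_num)
  have hd := fun x => hasFDerivAt_kernel hU hW1 hasCompactSupport_avgW hR.ne' x
  show ContDiff ℝ 2 fun x => ∫ y, U (x + R • y) • avgW y
  rw [show (2 : WithTop ℕ∞) = 1 + 1 from rfl, contDiff_succ_iff_fderiv_apply]
  refine ⟨fun x => (hd x).differentiableAt, fun h => absurd h (by decide), fun v => ?_⟩
  have e : (fun x => fderiv ℝ (fun x => ∫ y, U (x + R • y) • avgW y) x v) =
      fun x => -(R⁻¹ * ∫ y, U (x + R • y) • fderiv ℝ avgW y v) := funext fun x => by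
    rw [(hd x).fderiv, neg_apply, smul_apply,
      ContinuousLinearMap.integral_apply (integrable_smul_kernel hU
        (hW1.continuous_fderiv one_ne_zero) (hasCompactSupport_avgW.fderiv ℝ) x R)]
    simp
  rw [e]
  refine (contDiff_const.mul (contDiff_kernel_one hU
    ((contDiff_two_avgW.fderiv_right le_rfl).clm_apply contDiff_const) ?_ hR.ne')).neg
  exact hasCompactSupport_avgW.fderiv_apply ℝ v

theorem avg_congr {U V : EuclideanSpace ℝ (Fin n) → ℝ} {x : EuclideanSpace ℝ (Fin n)} {R : ℝ}
    (hR : 0 ≤ R) (h : ∀ y ∈ closedBall x R, U y = V y) : avg U x R = avg V x R := by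
  refine integral_congr_ae (Eventually.of_forall fun y => ?_)
  by_cases hy : ‖y‖ ≤ 1
  · simp only
    rw [h]
    rw [mem_closedBall, dist_eq_norm, add_sub_cancel_left, norm_smul, Real.norm_eq_abs,
      abs_of_nonneg hR]
    exact mul_le_of_le_one_right hR hy
  · simp [avgW_eq_zero (le_of_not_ge hy)]

theorem potT_congr {f g : EuclideanSpace ℝ (Fin n) → ℝ} {x : EuclideanSpace ℝ (Fin n)} {R : ℝ}
    (hR : 0 ≤ R) (h : ∀ y ∈ closedBall x R, f y = g y) : potT R f x = potT R g x := by
  refine intervalIntegral.integral_congr fun s hs => ?_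
  rw [uIcc_of_le hR] at hs
  congr 1
  refine integral_congr_ae (Eventually.of_forall fun y => ?_)
  by_cases hy : ‖y‖ ≤ 1
  · simp only
    rw [h]
    rw [mem_closedBall, dist_eq_norm, add_sub_cancel_left, norm_smul, Real.norm_eq_abs,
      abs_of_nonneg hs.1]
    exact (mul_le_of_le_one_right hs.1 hy).trans hs.2
  · simp [avgPot_eq_zero (le_of_not_ge hy)]

theorem continuous_avgPot_integral {f : EuclideanSpace ℝ (Fin n) → ℝ} (hf : Continuous f)
    (x : EuclideanSpace ℝ (Fin n)) : Continuous fun s : ℝ => ∫ y, f (x + s • y) * avgPot y :=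
  (continuous_kernel hf continuous_avgPot hasCompactSupport_avgPot).comp
    (continuous_const.prodMk continuous_id)

/-- The mean value identity. -/
theorem avg_add_potT {U : EuclideanSpace ℝ (Fin n) → ℝ} (hU : ContDiff ℝ 2 U)
    (x : EuclideanSpace ℝ (Fin n)) (R : ℝ) :
    avg U x R + potT R (fun z => -Laplacian.laplacian U z) x =
      U x * ∫ y : EuclideanSpace ℝ (Fin n), avgW y := by
  have h := intervalIntegral.integral_eq_sub_of_hasDerivAt (a := 0) (b := R)
    (fun s _ => hasDerivAt_avg hU x s)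
    ((continuous_id.mul (continuous_avgPot_integral (continuous_laplacian hU) x)).intervalIntegrable
      _ _)
  rw [avg_zero] at h
  simp only [potT, neg_mul, integral_neg, mul_neg, intervalIntegral.integral_neg]
  linarith

/-! ### The potential term -/

/-- The derivative of the potential term in the centre. -/
noncomputable def potD (R : ℝ) (f : EuclideanSpace ℝ (Fin n) → ℝ)
    (x : EuclideanSpace ℝ (Fin n)) : EuclideanSpace ℝ (Fin n) →L[ℝ] ℝ :=
  -∫ s in (0 : ℝ)..R, ∫ y, f (x + s • y) • fderiv ℝ avgPot y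

theorem continuous_potD_integrand {f : EuclideanSpace ℝ (Fin n) → ℝ} (hf : Continuous f) :
    Continuous fun p : EuclideanSpace ℝ (Fin n) × ℝ =>
      ∫ y, f (p.1 + p.2 • y) • fderiv ℝ avgPot y :=
  continuous_kernel hf (contDiff_one_avgPot.continuous_fderiv one_ne_zero)
    (hasCompactSupport_avgPot.fderiv ℝ)

theorem hasFDerivAt_potT {f : EuclideanSpace ℝ (Fin n) → ℝ} (hf : Continuous f) (R : ℝ)
    (x₀ : EuclideanSpace ℝ (Fin n)) : HasFDerivAt (potT R f) (potD R f x₀) x₀ := by
  have hg : Continuous fun p : EuclideanSpace ℝ (Fin n) × ℝ =>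
      p.2 * ∫ y, f (p.1 + p.2 • y) * avgPot y :=
    continuous_snd.mul (continuous_kernel hf continuous_avgPot hasCompactSupport_avgPot)
  have hD := (continuous_potD_integrand hf).neg
  obtain ⟨C, hC⟩ := ((isCompact_closedBall x₀ 1).prod (isCompact_uIcc (a := (0 : ℝ)) (b := R)))
    |>.exists_bound_of_continuousOn hD.continuousOn
  have h := intervalIntegral.hasFDerivAt_integral_of_dominated_of_fderiv_le (a := 0) (b := R)
    (μ := volume) (F := fun x s => s * ∫ y, f (x + s • y) * avgPot y)
    (F' := fun x s => -∫ y, f (x + s • y) • fderiv ℝ avgPot y) (bound := fun _ => C)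
    (Metric.ball_mem_nhds x₀ one_pos)
    (Eventually.of_forall fun x =>
      (hg.comp (continuous_const.prodMk continuous_id)).aestronglyMeasurable)
    ((hg.comp (continuous_const.prodMk continuous_id)).intervalIntegrable _ _)
    ((hD.comp (continuous_const.prodMk continuous_id)).aestronglyMeasurable)
    (Eventually.of_forall fun s hs x hx =>
      hC (x, s) ⟨ball_subset_closedBall hx, uIoc_subset_uIcc hs⟩)
    intervalIntegrable_const ?_
  · rw [potD, ← intervalIntegral.integral_neg]
    exact h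
  · filter_upwards [volume.ae_ne (0 : ℝ)] with s hs _ x _
    refine ((hasFDerivAt_kernel hf contDiff_one_avgPot hasCompactSupport_avgPot hs x).const_mul s
      ).congr_fderiv ?_
    rw [smul_neg, smul_smul, mul_inv_cancel₀ hs, one_smul]

theorem continuous_potD {f : EuclideanSpace ℝ (Fin n) → ℝ} (hf : Continuous f) (R : ℝ) :
    Continuous (potD R f) :=
  (intervalIntegral.continuous_parametric_intervalIntegral_of_continuous'
    (f := fun x s => ∫ y, f (x + s • y) • fderiv ℝ avgPot y) (continuous_potD_integrand hf) 0 R).neg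

/-- The potential term is `C¹` for continuous data. -/
theorem contDiff_potT_one {f : EuclideanSpace ℝ (Fin n) → ℝ} (hf : Continuous f) (R : ℝ) :
    ContDiff ℝ 1 (potT R f) := by
  refine contDiff_one_iff_fderiv.2 ⟨fun x => (hasFDerivAt_potT hf R x).differentiableAt, ?_⟩
  rw [funext fun x => (hasFDerivAt_potT hf R x).fderiv]
  exact continuous_potD hf R

theorem potD_apply {f : EuclideanSpace ℝ (Fin n) → ℝ} (hf : Continuous f) (R : ℝ)
    (x v : EuclideanSpace ℝ (Fin n)) :
    potD R f x v = -∫ s in (0 : ℝ)..R, ∫ y, f (x + s • y) * fderiv ℝ avgPot y v := by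
  have hi : IntervalIntegrable (fun s => ∫ y, f (x + s • y) • fderiv ℝ avgPot y) volume 0 R :=
    ((continuous_potD_integrand hf).comp
      (continuous_const.prodMk continuous_id)).intervalIntegrable _ _
  rw [potD, neg_apply, ContinuousLinearMap.intervalIntegral_apply hi v]
  congr 1
  refine intervalIntegral.integral_congr fun s _ => ?_
  simp only [ContinuousLinearMap.integral_apply (integrable_smul_kernel hf
    (contDiff_one_avgPot.continuous_fderiv one_ne_zero) (hasCompactSupport_avgPot.fderiv ℝ) x s)]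
  simp

/-- For `C¹` data the derivative is the potential term of the derivative. -/
theorem potD_eq_potT {f : EuclideanSpace ℝ (Fin n) → ℝ} (hf : ContDiff ℝ 1 f) (R : ℝ)
    (x v : EuclideanSpace ℝ (Fin n)) :
    potD R f x v = potT R (fun z => fderiv ℝ f z v) x := by
  rw [potD_apply hf.continuous, ← intervalIntegral.integral_neg]
  refine intervalIntegral.integral_congr fun s _ => ?_
  have hd : ∀ y, fderiv ℝ (fun z => f (x + s • z)) y v = s * fderiv ℝ f (x + s • y) v := fun y => by
    have h1 : HasFDerivAt (fun z : EuclideanSpace ℝ (Fin n) => x + s • z)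
        (s • ContinuousLinearMap.id ℝ (EuclideanSpace ℝ (Fin n))) y :=
      ((hasFDerivAt_id y).const_smul s).const_add x
    rw [show fderiv ℝ (fun z => f (x + s • z)) y = _ from
      (((hf.differentiable one_ne_zero) (x + s • y)).hasFDerivAt.comp y h1).fderiv]
    simp
  have hdf : Continuous fun y => fderiv ℝ f (x + s • y) v := by
    have := hf.continuous_fderiv one_ne_zero
    fun_prop
  have hdp : Continuous fun y : EuclideanSpace ℝ (Fin n) => fderiv ℝ avgPot y v := by
    have := (contDiff_one_avgPot (n := n)).continuous_fderiv one_ne_zero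
    fun_prop
  have hfx : Continuous fun y => f (x + s • y) := by have := hf.continuous; fun_prop
  have h := integral_mul_fderiv_eq_neg_fderiv_mul_of_integrable
    (μ := (volume : Measure (EuclideanSpace ℝ (Fin n)))) (f := fun y => f (x + s • y)) (g := avgPot)
    (v := v) (by simp only [hd]; exact integrable_mul_avgPot (continuous_const.mul hdf))
    ((hfx.mul hdp).integrable_of_hasCompactSupport
      (hasCompactSupport_avgPot.fderiv_apply ℝ v).mul_left)
    (integrable_mul_avgPot hfx)
    (fun y _ => ((hf.comp (contDiff_const.add (contDiff_const_smul s))).differentiable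
      one_ne_zero).differentiableAt)
    (fun y _ => (hasFDerivAt_avgPot y).differentiableAt)
  simp only [hd, mul_assoc, integral_const_mul] at h
  simp only [h, neg_neg]

/-- The potential term is `C²` for `C¹` data. -/
theorem contDiff_potT_two {f : EuclideanSpace ℝ (Fin n) → ℝ} (hf : ContDiff ℝ 1 f) (R : ℝ) :
    ContDiff ℝ 2 (potT R f) := by
  rw [show (2 : WithTop ℕ∞) = 1 + 1 from rfl, contDiff_succ_iff_fderiv_apply]
  refine ⟨fun x => (hasFDerivAt_potT hf.continuous R x).differentiableAt,
    fun h => absurd h (by decide), fun v => ?_⟩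
  rw [show (fun x => fderiv ℝ (potT R f) x v) = potT R (fun z => fderiv ℝ f z v) from
    funext fun x => by rw [(hasFDerivAt_potT hf.continuous R x).fderiv, potD_eq_potT hf]]
  refine contDiff_potT_one ?_ R
  have := hf.continuous_fderiv one_ne_zero
  fun_prop

theorem potT_sub {f g : EuclideanSpace ℝ (Fin n) → ℝ} (hf : Continuous f) (hg : Continuous g)
    (R : ℝ) (x : EuclideanSpace ℝ (Fin n)) :
    potT R (fun z => f z - g z) x = potT R f x - potT R g x := by
  have hi : ∀ {φ : EuclideanSpace ℝ (Fin n) → ℝ}, Continuous φ →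
      IntervalIntegrable (fun s => s * ∫ y, φ (x + s • y) * avgPot y) volume 0 R := fun hφ =>
    (continuous_id.mul (continuous_avgPot_integral hφ x)).intervalIntegrable _ _
  rw [potT, potT, potT, ← intervalIntegral.integral_sub (hi hf) (hi hg)]
  refine intervalIntegral.integral_congr fun s _ => ?_
  simp only [sub_mul]
  rw [integral_sub (integrable_mul_avgPot (g := fun y => f (x + s • y)) (by fun_prop))
    (integrable_mul_avgPot (g := fun y => g (x + s • y)) (by fun_prop)), mul_sub]

/-- The potential terms of all radii determine the data. -/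
theorem eq_zero_of_potT {g : EuclideanSpace ℝ (Fin n) → ℝ} (hg : Continuous g)
    {x : EuclideanSpace ℝ (Fin n)} (h : ∀ R, 0 < R → potT R g x = 0) : g x = 0 := by
  have hc : Continuous fun s : ℝ => s * ∫ y, g (x + s • y) * avgPot y :=
    continuous_id.mul (continuous_avgPot_integral hg x)
  have h0 : ∀ R : ℝ, 0 < R → ∫ y, g (x + R • y) * avgPot y = 0 := fun R hR => by
    have hd := (hc.integral_hasStrictDerivAt 0 R).hasDerivAt
    have he : (fun r => ∫ s in (0 : ℝ)..r, s * ∫ y, g (x + s • y) * avgPot y)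
        =ᶠ[𝓝 R] fun _ => (0 : ℝ) := by
      filter_upwards [Ioi_mem_nhds hR] with r hr
      exact h r hr
    exact (mul_eq_zero.1 (hd.unique ((hasDerivAt_const R (0 : ℝ)).congr_of_eventuallyEq he))
      ).resolve_left hR.ne'
  have h1 : Tendsto (fun s : ℝ => ∫ y, g (x + s • y) * avgPot y) (𝓝[>] 0)
      (𝓝 (∫ y, g (x + (0 : ℝ) • y) * avgPot y)) :=
    ((continuous_avgPot_integral hg x).tendsto 0).mono_left nhdsWithin_le_nhds
  have h2 := tendsto_nhds_unique h1 (tendsto_const_nhds.congr'
    (eventually_mem_nhdsWithin.mono fun s hs => (h0 s hs).symm))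
  simp only [zero_smul, add_zero, integral_const_mul] at h2
  exact (mul_eq_zero.1 h2).resolve_right integral_avgPot_pos.ne'

/-! ### A uniform Lipschitz bound -/

/-- Bounds on `U` and `ΔU` on a ball of radius three give a Lipschitz bound on the unit ball. -/
theorem lipschitz_of_bounds (n : ℕ) : ∃ C, 0 ≤ C ∧
    ∀ (U : EuclideanSpace ℝ (Fin n) → ℝ) (z : EuclideanSpace ℝ (Fin n)) (M L : ℝ),
      ContDiff ℝ 2 U → (∀ y ∈ closedBall z 3, |U y| ≤ M) →
      (∀ y ∈ closedBall z 3, |Laplacian.laplacian U y| ≤ L) →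
      ∀ x ∈ closedBall z 1, ∀ x' ∈ closedBall z 1,
        |U x - U x'| ≤ C * (M + L) * dist x x' := by
  set A := ∫ y : EuclideanSpace ℝ (Fin n), ‖fderiv ℝ avgW y‖
  set B := ∫ y : EuclideanSpace ℝ (Fin n), ‖fderiv ℝ avgPot y‖
  set W := ∫ y : EuclideanSpace ℝ (Fin n), avgW y
  have hW : 0 < W := integral_avgW_pos
  have hA : 0 ≤ A := integral_nonneg fun y => norm_nonneg _
  have hB : 0 ≤ B := integral_nonneg fun y => norm_nonneg _
  refine ⟨(A + B) / W, by positivity, fun U z M L hU hM hL x hx x' hx' => ?_⟩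
  have hW1 : ContDiff ℝ 1 (avgW : EuclideanSpace ℝ (Fin n) → ℝ) :=
    contDiff_two_avgW.of_le (by norm_num)
  have hout : ∀ {φ : EuclideanSpace ℝ (Fin n) → ℝ}, (∀ y, 1 ≤ ‖y‖ → φ y = 0) →
      ∀ y, 1 < ‖y‖ → fderiv ℝ φ y = 0 := fun {φ} h y hy => by
    refine fderiv_of_notMem_tsupport ℝ (notMem_tsupport_iff_eventuallyEq.2 ?_)
    filter_upwards [(continuous_norm.tendsto y).eventually (eventually_gt_nhds hy)] with w hw
    simpa using h w hw.le
  set f := fun w => -Laplacian.laplacian U w with hf
  have hfc : Continuous f := (continuous_laplacian hU).neg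
  set G := fun w => (∫ y, U (w + (1 : ℝ) • y) • avgW y) + potT 1 f w with hG
  have hd : ∀ w, HasFDerivAt G (-((1 : ℝ)⁻¹ • ∫ y, U (w + (1 : ℝ) • y) • fderiv ℝ avgW y)
      + potD 1 f w) w := fun w =>
    (hasFDerivAt_kernel hU.continuous hW1 hasCompactSupport_avgW one_ne_zero w).add
      (hasFDerivAt_potT hfc 1 w)
  have hb : ∀ w ∈ closedBall z 1, ‖-((1 : ℝ)⁻¹ • ∫ y, U (w + (1 : ℝ) • y) • fderiv ℝ avgW y)
      + potD 1 f w‖ ≤ M * A + L * B := by
    intro w hw
    have sub : ∀ r : ℝ, r ≤ 1 → closedBall w r ⊆ closedBall z 3 := fun r hr =>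
      closedBall_subset_closedBall' (by linarith [mem_closedBall.1 hw])
    refine (norm_add_le _ _).trans (add_le_add ?_ ?_)
    · rw [norm_neg, inv_one, one_smul]
      exact norm_kernel_le (hW1.continuous_fderiv one_ne_zero) (hasCompactSupport_avgW.fderiv ℝ)
        (hout fun _ => avgW_eq_zero) fun y hy => hM y (sub _ (by simp) hy)
    · rw [potD, norm_neg]
      refine (intervalIntegral.norm_integral_le_of_norm_le_const (C := L * B) fun s hs => ?_).trans
        (le_of_eq (by simp))
      rw [uIoc_of_le zero_le_one] at hs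
      exact norm_kernel_le (contDiff_one_avgPot.continuous_fderiv one_ne_zero)
        (hasCompactSupport_avgPot.fderiv ℝ) (hout fun _ => avgPot_eq_zero) fun y hy => by
          rw [hf, abs_neg]
          exact hL y (sub _ (abs_le.2 ⟨by linarith [hs.1], hs.2⟩) hy)
  have h := (convex_closedBall z 1).norm_image_sub_le_of_norm_hasFDerivWithin_le
    (fun w _ => (hd w).hasFDerivWithinAt) hb hx' hx
  have e : ∀ w, G w = U w * W := fun w => avg_add_potT hU w 1
  rw [e, e, ← sub_mul, norm_mul, Real.norm_eq_abs, Real.norm_eq_abs, abs_of_pos hW,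
    ← dist_eq_norm] at h
  have hML : 0 ≤ M ∧ 0 ≤ L := ⟨(abs_nonneg _).trans (hM z (mem_closedBall_self (by norm_num))),
    (abs_nonneg _).trans (hL z (mem_closedBall_self (by norm_num)))⟩
  have h2 : (M * A + L * B) * dist x x' ≤ (A + B) * (M + L) * dist x x' :=
    mul_le_mul_of_nonneg_right (by linarith [mul_nonneg hA hML.2, mul_nonneg hB hML.1])
      dist_nonneg
  rw [div_mul_eq_mul_div, div_mul_eq_mul_div, le_div_iff₀ hW]
  linarith

/-! ### Consequences of the identity for continuous data -/

section identity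

variable {U f : EuclideanSpace ℝ (Fin n) → ℝ}
  (hid : ∀ x R, 0 < R → avg U x R + potT R f x = U x * ∫ y : EuclideanSpace ℝ (Fin n), avgW y)

include hid

theorem eq_div_of_identity :
    U = fun x => (avg U x 1 + potT 1 f x) / ∫ y : EuclideanSpace ℝ (Fin n), avgW y :=
  funext fun x => by rw [hid x 1 one_pos, mul_div_cancel_right₀ _ integral_avgW_pos.ne']

theorem contDiff_one_of_identity (hU : Continuous U) (hf : Continuous f) : ContDiff ℝ 1 U := by
  rw [eq_div_of_identity hid]
  exact (((contDiff_avg hU one_pos).of_le (by norm_num)).add (contDiff_potT_one hf 1)).div_const _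

theorem contDiff_two_of_identity (hU : Continuous U) (hf : ContDiff ℝ 1 f) : ContDiff ℝ 2 U := by
  rw [eq_div_of_identity hid]
  exact ((contDiff_avg hU one_pos).add (contDiff_potT_two hf 1)).div_const _

theorem laplacian_of_identity (hU : ContDiff ℝ 2 U) (hf : Continuous f)
    (x : EuclideanSpace ℝ (Fin n)) : Laplacian.laplacian U x = -f x := by
  have hl : Continuous fun z => -Laplacian.laplacian U z := (continuous_laplacian hU).neg
  have h := eq_zero_of_potT (g := fun z => f z - -Laplacian.laplacian U z) (x := x) (hf.sub hl)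
    fun R hR => by
      rw [potT_sub hf hl]
      linarith [hid x R hR, avg_add_potT hU x R]
  linarith

theorem eq_zero_of_identity (hU : Continuous U) (hf : Continuous f) (hU0 : ∀ x, 0 ≤ U x)
    (hf0 : ∀ x, 0 ≤ f x) {x₀ : EuclideanSpace ℝ (Fin n)} (h0 : U x₀ = 0) :
    (∀ x, U x = 0) ∧ ∀ x, f x = 0 := by
  have hpot : ∀ x R, 0 ≤ R → 0 ≤ potT R f x := fun x R hR =>
    intervalIntegral.integral_nonneg hR fun s hs =>
      mul_nonneg hs.1 (integral_nonneg fun y => mul_nonneg (hf0 _) (avgPot_nonneg y))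
  have hz : ∀ x, U x = 0 := by
    intro z
    set R := 2 * ‖z - x₀‖ + 1 with hR
    have hR0 : 0 < R := by positivity
    have hav : avg U x₀ R = 0 := by
      have h1 := hid x₀ R hR0
      rw [h0, zero_mul] at h1
      have h2 : 0 ≤ avg U x₀ R :=
        integral_nonneg fun y => mul_nonneg (hU0 _) (avgW_nonneg y)
      linarith [hpot x₀ R hR0.le]
    have hc : Continuous fun y => U (x₀ + R • y) * avgW y := by
      have := continuous_avgW (n := n); fun_prop
    by_contra hne
    have hpos : 0 < ∫ y, U (x₀ + R • y) * avgW y := by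
      refine hc.integral_pos_of_hasCompactSupport_nonneg_nonzero hasCompactSupport_avgW.mul_left
        (fun y => mul_nonneg (hU0 _) (avgW_nonneg y)) (x := R⁻¹ • (z - x₀)) ?_
      rw [smul_smul, mul_inv_cancel₀ hR0.ne', one_smul, add_sub_cancel]
      refine mul_ne_zero hne (pow_ne_zero _ (ne_of_gt (lt_max_of_lt_left ?_)))
      have hlt : ‖R⁻¹ • (z - x₀)‖ < 1 := by
        rw [norm_smul, Real.norm_eq_abs, abs_inv, abs_of_pos hR0, inv_mul_lt_iff₀ hR0]
        linarith [norm_nonneg (z - x₀)]
      exact sub_pos.2 (pow_lt_one₀ (norm_nonneg _) hlt two_ne_zero)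
    exact hpos.ne' hav
  refine ⟨hz, fun x => eq_zero_of_potT hf fun R hR => ?_⟩
  have h1 := hid x R hR
  have h2 : avg U x R = 0 := by simp [avg, hz]
  rw [h2, hz x, zero_mul] at h1
  linarith

end identity

end Vale.Agent.P100.Weighted
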