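import Mathlib
import Vale.Agent.P100.SoupletAB.Defs

/-!
# Rescaling of solutions with large values on an annulus

If the solutions are not bounded on the annulus `1/2 ≤ ‖x‖ ≤ 3` uniformly, then doubling of
`u ^ (1/α) + v ^ (1/β)` gives rescaled pairs on balls of radius tending to infinity, bounded
there, normalised at the centre, and solving the system with slowly varying weights.
-/

open Filter Set Metric Topology Laplacian

namespace Vale.Agent.P100.Weighted

open SoupletAB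

variable {n : ℕ} {A B p q : ℝ}

/-- The Laplacian of a rescaled translate. -/
theorem laplacian_affine {f : EuclideanSpace ℝ (Fin n) → ℝ} {x₀ x : EuclideanSpace ℝ (Fin n)}
    {c : ℝ} (a : ℝ) (hf : ContDiffAt ℝ 2 f (x₀ + c • x)) :
    Δ (fun y => a * f (x₀ + c • y)) x = a * c ^ 2 * Δ f (x₀ + c • x) := by
  have hs : ContDiffAt ℝ 2 (fun y : EuclideanSpace ℝ (Fin n) => a * f (x₀ + c • y)) x :=
    (hf.comp x (contDiffAt_const.add (contDiffAt_id.const_smul c))).const_smul a
  rw [Super.lap_eq_sum hs (EuclideanSpace.basisFun (Fin n) ℝ),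
    Super.lap_eq_sum hf (EuclideanSpace.basisFun (Fin n) ℝ), Finset.mul_sum]
  refine Finset.sum_congr rfl fun i _ => ?_
  set w := EuclideanSpace.basisFun (Fin n) ℝ i
  set g : ℝ → ℝ := fun t => f (x₀ + c • x + t • w)
  have e1 : (fun t : ℝ => a * f (x₀ + c • (x + t • w))) = fun t => a * g (c * t) := by
    ext t; simp [g, smul_add, smul_smul, add_assoc]
  have e2 : deriv (fun t => a * g (c * t)) = fun t => a * c * deriv g (c * t) := by
    ext t
    simp only [deriv_const_mul_field, deriv_comp_mul_left, smul_eq_mul]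
    ring
  rw [e1, e2]
  simp only [deriv_const_mul_field, deriv_comp_mul_left, smul_eq_mul, mul_zero]
  ring

/-- Doubling: near a point there is a point where the function is at least as large and nearly
maximal on a ball, large in the scale of that value. -/
theorem exists_doubling {M : EuclideanSpace ℝ (Fin n) → ℝ} {y : EuclideanSpace ℝ (Fin n)} {ρ : ℝ}
    (hρ : 0 < ρ) (hM : ContinuousOn M (closedBall y ρ)) (h0 : ∀ z ∈ closedBall y ρ, 0 < M z) :
    ∃ x s, 0 < s ∧ s ≤ ρ ∧ closedBall x (s / 2) ⊆ closedBall y ρ ∧ ρ * M y ≤ s * M x ∧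
      ∀ z ∈ closedBall x (s / 2), M z ≤ 2 * M x := by
  obtain ⟨x, hx, hmax⟩ := (isCompact_closedBall y ρ).exists_isMaxOn (nonempty_closedBall.2 hρ.le)
    (hM.mul (continuous_const.sub (continuous_id.dist continuous_const)).continuousOn
      : ContinuousOn (fun z => M z * (ρ - dist z y)) (closedBall y ρ))
  have hy : y ∈ closedBall y ρ := mem_closedBall_self hρ.le
  have hMy : M y * ρ ≤ M x * (ρ - dist x y) := by simpa using hmax hy
  have hs : 0 < ρ - dist x y := by
    by_contra hc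
    push Not at hc
    have := mul_nonpos_of_nonneg_of_nonpos (h0 x hx).le hc
    nlinarith [h0 y hy]
  have hsub : closedBall x ((ρ - dist x y) / 2) ⊆ closedBall y ρ :=
    closedBall_subset_closedBall' (by linarith)
  refine ⟨x, ρ - dist x y, hs, by linarith [dist_nonneg (x := x) (y := y)], hsub,
    by linarith, fun z hz => ?_⟩
  have hz1 : M z * (ρ - dist z y) ≤ M x * (ρ - dist x y) := hmax (hsub hz)
  have hd : (ρ - dist x y) / 2 ≤ ρ - dist z y := by
    have := dist_triangle z x y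
    rw [mem_closedBall] at hz
    linarith
  have hz2 := (mul_le_mul_of_nonneg_left hd (h0 z (hsub hz)).le).trans hz1
  nlinarith

/-- One component on a rescaled ball, cut off outside to a `C²` function on the space. -/
theorem exists_scaled {f g : EuclideanSpace ℝ (Fin n) → ℝ} {W e : ℝ}
    (hf : ContDiffOn ℝ 2 f {0}ᶜ)
    (heq : ∀ x, x ≠ 0 → Δ f x = -(‖x‖ ^ W * g x ^ e))
    {x₀ : EuclideanSpace ℝ (Fin n)} {l r a : ℝ} (hl : 0 ≤ l) (hr : 0 < r)
    (hne : l * (r + 1) < ‖x₀‖) :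
    ∃ F : EuclideanSpace ℝ (Fin n) → ℝ, ContDiff ℝ 2 F ∧
      (∀ z, ‖z‖ ≤ r → F z = a * f (x₀ + l • z)) ∧
      ∀ z, ‖z‖ < r → Δ F z = -(a * l ^ 2 * (‖x₀ + l • z‖ ^ W * g (x₀ + l • z) ^ e)) := by
  obtain ⟨β, hβ, -, -, hβ1, hβ0⟩ :=
    Puncture.exists_bump (E := EuclideanSpace ℝ (Fin n)) hr
  have hnz : ∀ z : EuclideanSpace ℝ (Fin n), ‖z‖ ≤ r + 1 → x₀ + l • z ≠ 0 := fun z hz h => by
    have h1 : ‖x₀‖ = l * ‖z‖ := by
      rw [eq_neg_of_add_eq_zero_left h, norm_neg, norm_smul, Real.norm_of_nonneg hl]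
    nlinarith [mul_le_mul_of_nonneg_left hz hl]
  have hat : ∀ z : EuclideanSpace ℝ (Fin n), ‖z‖ ≤ r + 1 →
      ContDiffAt ℝ 2 (fun w => a * f (x₀ + l • w)) z := fun z hz =>
    ((hf.contDiffAt (isOpen_compl_singleton.mem_nhds (hnz z hz))).comp z
      (contDiffAt_const.add (contDiffAt_id.const_smul l))).const_smul a
  refine ⟨fun z => β z * (a * f (x₀ + l • z)), contDiff_iff_contDiffAt.2 fun z => ?_,
    fun z hz => by simp [hβ1 z hz], fun z hz => ?_⟩
  · rcases le_or_gt ‖z‖ (r + 1) with hz | hz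
    · exact hβ.contDiffAt.mul (hat z hz)
    · refine (contDiffAt_const (c := (0 : ℝ))).congr_of_eventuallyEq ?_
      filter_upwards [(isOpen_lt continuous_const continuous_norm).mem_nhds hz] with w hw
      simp [hβ0 w hw.le]
  · have hev : (fun w => β w * (a * f (x₀ + l • w))) =ᶠ[𝓝 z] fun w => a * f (x₀ + l • w) := by
      filter_upwards [(isOpen_lt continuous_norm continuous_const).mem_nhds hz] with w hw
      simp [hβ1 w hw.le]
    have hz' : x₀ + l • z ≠ 0 := hnz z (by linarith)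
    rw [(InnerProductSpace.laplacian_congr_nhds hev).self_of_nhds,
      laplacian_affine a (hf.contDiffAt (isOpen_compl_singleton.mem_nhds hz')), heq _ hz']
    ring

/-- Rescaled pairs from solutions that are not uniformly bounded on the annulus. -/
theorem exists_blow_seq (hp : 0 < p) (hq : 0 < q) (hpq : 1 < p * q) {α β : ℝ}
    (hα : α = 2 * (p + 1) / (p * q - 1)) (hβ : β = 2 * (q + 1) / (p * q - 1))
    (hno : ¬ ∃ C : ℝ, ∀ u v : EuclideanSpace ℝ (Fin n) → ℝ, IsSolAB A B p q u v →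
      ∀ x, 1 / 2 ≤ ‖x‖ → ‖x‖ ≤ 3 → u x ≤ C ∧ v x ≤ C) :
    ∃ (x : ℕ → EuclideanSpace ℝ (Fin n)) (l : ℕ → ℝ)
      (U V : ℕ → EuclideanSpace ℝ (Fin n) → ℝ),
      (∀ k, 1 / 4 ≤ ‖x k‖ ∧ ‖x k‖ ≤ 4) ∧ Tendsto l atTop (𝓝 0) ∧
      (∀ k, ContDiff ℝ 2 (U k) ∧ ContDiff ℝ 2 (V k) ∧
        U k 0 ^ (1 / α) + V k 0 ^ (1 / β) = 1) ∧
      ∀ R : ℝ, ∀ᶠ k in atTop, ∀ z, ‖z‖ ≤ R →
        (0 < U k z ∧ U k z ≤ 2 ^ α ∧ 0 < V k z ∧ V k z ≤ 2 ^ β) ∧
        Δ (U k) z = -(‖x k + l k • z‖ ^ A * V k z ^ p) ∧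
        Δ (V k) z = -(‖x k + l k • z‖ ^ B * U k z ^ q) := by
  have hd : 0 < p * q - 1 := by linarith
  have hα0 : 0 < α := by rw [hα]; exact div_pos (by linarith) hd
  have hβ0 : 0 < β := by rw [hβ]; exact div_pos (by linarith) hd
  have hβp : β * p = α + 2 := by
    rw [hα, hβ, eq_comm, div_add' _ _ _ hd.ne', div_mul_eq_mul_div]; congr 1; ring
  have hαq : α * q = β + 2 := by
    rw [hα, hβ, eq_comm, div_add' _ _ _ hd.ne', div_mul_eq_mul_div]; congr 1; ring
  push Not at hno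
  have hstep : ∀ k : ℕ, ∃ (x : EuclideanSpace ℝ (Fin n)) (l : ℝ)
      (U V : EuclideanSpace ℝ (Fin n) → ℝ), (1 / 4 ≤ ‖x‖ ∧ ‖x‖ ≤ 4) ∧
      (0 ≤ l ∧ l * ((k : ℝ) + 16) ≤ 1) ∧
      (ContDiff ℝ 2 U ∧ ContDiff ℝ 2 V ∧ U 0 ^ (1 / α) + V 0 ^ (1 / β) = 1) ∧
      ∀ z, ‖z‖ ≤ (k : ℝ) / 8 →
        (0 < U z ∧ U z ≤ 2 ^ α ∧ 0 < V z ∧ V z ≤ 2 ^ β) ∧
        Δ U z = -(‖x + l • z‖ ^ A * V z ^ p) ∧ Δ V z = -(‖x + l • z‖ ^ B * U z ^ q) := by
    intro k
    set t : ℝ := (k : ℝ) + 16 with ht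
    have ht0 : 0 < t := by positivity
    obtain ⟨u, v, h, y, hy1, hy2, hy⟩ := hno (max (t ^ α) (t ^ β))
    set M := fun z => u z ^ (1 / α) + v z ^ (1 / β) with hMdef
    have hMpos : ∀ z, 0 < M z := fun z =>
      add_pos (Real.rpow_pos_of_pos (h.posU z) _) (Real.rpow_pos_of_pos (h.posV z) _)
    have hMc : Continuous M :=
      (h.contU.rpow_const fun z => Or.inl (h.posU z).ne').add
        (h.contV.rpow_const fun z => Or.inl (h.posV z).ne')
    have hMy : t ≤ M y := by
      have key : ∀ {a w : ℝ}, 0 < a → t ^ a < w → t ≤ w ^ (1 / a) := fun {a w} ha hw => by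
        rw [one_div, Real.le_rpow_inv_iff_of_pos ht0.le ((Real.rpow_pos_of_pos ht0 _).trans hw).le
          ha]
        exact hw.le
      rcases le_or_gt (u y) (max (t ^ α) (t ^ β)) with hu | hu
      · have := key hβ0 ((le_max_right _ _).trans_lt (hy hu))
        linarith [Real.rpow_pos_of_pos (h.posU y) (1 / α)]
      · have := key hα0 ((le_max_left _ _).trans_lt hu)
        linarith [Real.rpow_pos_of_pos (h.posV y) (1 / β)]
    obtain ⟨x, s, hs, hsρ, hsub, hge, hdbl⟩ :=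
      exists_doubling (y := y) (ρ := 1 / 4) (by norm_num) hMc.continuousOn fun z _ => hMpos z
    have hMx := hMpos x
    have hx : 1 / 4 ≤ ‖x‖ ∧ ‖x‖ ≤ 4 := by
      have hd' : dist x y ≤ 1 / 4 := hsub (mem_closedBall_self (by linarith))
      rw [dist_eq_norm] at hd'
      have := abs_le.1 ((abs_norm_sub_norm_le x y).trans hd')
      constructor <;> linarith
    set l : ℝ := (M x)⁻¹ with hl
    have hl0 : 0 < l := inv_pos.2 hMx
    have hlt : l * t ≤ 1 := by
      rw [hl, inv_mul_le_iff₀ hMx, mul_one]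
      have : s * M x ≤ 1 / 4 * M x := mul_le_mul_of_nonneg_right hsρ hMx.le
      linarith
    set r : ℝ := s / 2 * M x - 1 with hr
    have hrk : (k : ℝ) / 8 + 1 ≤ r := by rw [hr]; linarith
    have hr0 : 0 < r := by
      have : (0 : ℝ) ≤ k / 8 := by positivity
      linarith
    have hlr : l * (r + 1) = s / 2 := by rw [hl, hr]; field_simp; ring
    have hne : l * (r + 1) < ‖x‖ := by linarith
    obtain ⟨U, hU, hUv, hUl⟩ := exists_scaled (a := l ^ α) h.smoothU h.eqU hl0.le hr0 hne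
    obtain ⟨V, hV, hVv, hVl⟩ := exists_scaled (a := l ^ β) h.smoothV h.eqV hl0.le hr0 hne
    have hup := fun z => (h.posU z).le
    have hvp := fun z => (h.posV z).le
    refine ⟨x, l, U, V, hx, ⟨hl0.le, hlt⟩, ⟨hU, hV, ?_⟩, fun z hz => ?_⟩
    · rw [hUv 0 (by simpa using hr0.le), hVv 0 (by simpa using hr0.le), smul_zero, add_zero,
        Real.mul_rpow (by positivity) (hup _), Real.mul_rpow (by positivity) (hvp _),
        ← Real.rpow_mul hl0.le, ← Real.rpow_mul hl0.le, mul_one_div_cancel hα0.ne',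
        mul_one_div_cancel hβ0.ne', Real.rpow_one, ← mul_add]
      exact inv_mul_cancel₀ hMx.ne'
    · have hzr : ‖z‖ < r := by linarith
      have hmem : x + l • z ∈ closedBall x (s / 2) := by
        rw [mem_closedBall, dist_eq_norm, add_sub_cancel_left, norm_smul,
          Real.norm_of_nonneg hl0.le, ← hlr]
        exact mul_le_mul_of_nonneg_left (by linarith) hl0.le
      have hb := hdbl _ hmem
      have hu1 : u (x + l • z) ^ (1 / α) ≤ 2 * M x := by
        linarith [Real.rpow_pos_of_pos (h.posV (x + l • z)) (1 / β)]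
      have hv1 : v (x + l • z) ^ (1 / β) ≤ 2 * M x := by
        linarith [Real.rpow_pos_of_pos (h.posU (x + l • z)) (1 / α)]
      have bound : ∀ {a w : ℝ}, 0 < a → 0 < w → w ^ (1 / a) ≤ 2 * M x → l ^ a * w ≤ 2 ^ a :=
        fun {a w} ha hw hle => by
          rw [one_div, Real.rpow_inv_le_iff_of_pos hw.le (by positivity) ha,
            Real.mul_rpow zero_le_two hMx.le] at hle
          rw [hl, Real.inv_rpow hMx.le, inv_mul_le_iff₀ (Real.rpow_pos_of_pos hMx _)]
          linarith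
      refine ⟨?_, ?_, ?_⟩
      · rw [hUv z hzr.le, hVv z hzr.le]
        exact ⟨mul_pos (Real.rpow_pos_of_pos hl0 _) (h.posU _), bound hα0 (h.posU _) hu1,
          mul_pos (Real.rpow_pos_of_pos hl0 _) (h.posV _), bound hβ0 (h.posV _) hv1⟩
      · rw [hUl z hzr, hVv z hzr.le, Real.mul_rpow (by positivity) (hvp _),
          ← Real.rpow_mul hl0.le, hβp, Real.rpow_add hl0, Real.rpow_two]
        ring
      · rw [hVl z hzr, hUv z hzr.le, Real.mul_rpow (by positivity) (hup _),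
          ← Real.rpow_mul hl0.le, hαq, Real.rpow_add hl0, Real.rpow_two]
        ring
  choose x l U V hx hl hUV hball using hstep
  refine ⟨x, l, U, V, hx, ?_, hUV, fun R => ?_⟩
  · have h16 : ∀ k : ℕ, l k ≤ ((k : ℝ) + 16)⁻¹ := fun k => by
      rw [← one_div, le_div_iff₀ (by positivity)]; exact (hl k).2
    exact squeeze_zero (fun k => (hl k).1) h16 (tendsto_inv_atTop_zero.comp
      (tendsto_atTop_add_const_right _ _ tendsto_natCast_atTop_atTop))
  · filter_upwards [(tendsto_natCast_atTop_atTop (R := ℝ)).eventually_ge_atTop (8 * R)] with k hk z hz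
    exact hball k z (by linarith)

end Vale.Agent.P100.Weighted
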