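import Mathlib
import Vale.Agent.P100.Weighted.Rescale
import Vale.Agent.P100.Weighted.Potential

/-!
# Blow-up to the system without weights

Rescaled pairs converge pointwise along a subsequence (uniform local Lipschitz bounds). The mean
value identity passes to the limit, so the limit is a positive solution of the system with two
positive constants in place of the weights, hence, after scaling, of the Lane–Emden system.
-/

open MeasureTheory Filter Set Metric Topology Laplacian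

namespace Vale.Agent.P100.Weighted

open SoupletAB

variable {n : ℕ} {A B p q : ℝ}

/-- On balls of every radius, eventually: values between `0` and `M` and Laplacian at most `L`. -/
def EvBounded (F : ℕ → EuclideanSpace ℝ (Fin n) → ℝ) (M L : ℝ) : Prop :=
  ∀ R : ℝ, ∀ᶠ k in atTop, ∀ z, ‖z‖ ≤ R → 0 ≤ F k z ∧ F k z ≤ M ∧ |Δ (F k) z| ≤ L

/-- Functions with these bounds are eventually equi-Lipschitz near each point. -/
theorem exists_lipschitz (n : ℕ) : ∃ C, 0 ≤ C ∧
    ∀ (F : ℕ → EuclideanSpace ℝ (Fin n) → ℝ) (M L : ℝ), (∀ k, ContDiff ℝ 2 (F k)) →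
      EvBounded F M L → ∀ z, ∀ᶠ k in atTop, ∀ x ∈ closedBall z 1,
        |F k x - F k z| ≤ C * (M + L) * dist x z := by
  obtain ⟨C, hC0, hC⟩ := lipschitz_of_bounds n
  refine ⟨C, hC0, fun F M L hF hb z => ?_⟩
  filter_upwards [hb (‖z‖ + 3)] with k hk x hx
  have hin : ∀ y ∈ closedBall z 3, ‖y‖ ≤ ‖z‖ + 3 := fun y hy => by
    rw [mem_closedBall, dist_eq_norm] at hy
    linarith [norm_le_norm_add_norm_sub' y z]
  exact hC (F k) z M L (hF k)
    (fun y hy => abs_le.2 ⟨by linarith [(hk y (hin y hy)).1, (hk y (hin y hy)).2.1],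
      (hk y (hin y hy)).2.1⟩)
    (fun y hy => (hk y (hin y hy)).2.2) x hx z (mem_closedBall_self zero_le_one)

/-- A subsequence converging everywhere, from convergence on a dense sequence. -/
theorem exists_limit {F : ℕ → EuclideanSpace ℝ (Fin n) → ℝ} {M L : ℝ}
    (hF : ∀ k, ContDiff ℝ 2 (F k)) (hb : EvBounded F M L) {φ : ℕ → ℕ} (hφ : StrictMono φ)
    {g : ℕ → ℝ} (hg : ∀ i, Tendsto
      (fun j => min (max (F (φ j) (TopologicalSpace.denseSeq (EuclideanSpace ℝ (Fin n)) i)) 0) M)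
      atTop (𝓝 (g i))) :
    ∃ Fl : EuclideanSpace ℝ (Fin n) → ℝ, Continuous Fl ∧ (∀ x, 0 ≤ Fl x) ∧
      ∀ x, Tendsto (fun j => F (φ j) x) atTop (𝓝 (Fl x)) := by
  obtain ⟨C, hC0, hC⟩ := exists_lipschitz n
  have hlip : ∀ z, ∀ᶠ j in atTop, ∀ x ∈ closedBall z 1,
      |F (φ j) x - F (φ j) z| ≤ C * (M + L) * dist x z := fun z =>
    hφ.tendsto_atTop.eventually (hC F M L hF hb z)
  have hbd : ∀ z, ∀ᶠ j in atTop, 0 ≤ F (φ j) z ∧ F (φ j) z ≤ M := fun z =>
    hφ.tendsto_atTop.eventually (p := fun k => 0 ≤ F k z ∧ F k z ≤ M)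
      ((hb ‖z‖).mono fun k hk => ⟨(hk z le_rfl).1, (hk z le_rfl).2.1⟩)
  set K := C * (M + L) with hK
  have hK0 : 0 ≤ K := by
    obtain ⟨k, hk⟩ := (hb 0).exists
    obtain ⟨h1, h2, h3⟩ := hk 0 (by simp)
    have := abs_nonneg (Δ (F k) 0)
    exact mul_nonneg hC0 (by linarith)
  have hcau : ∀ x, ∃ c, Tendsto (fun j => F (φ j) x) atTop (𝓝 c) := by
    intro x
    refine cauchySeq_tendsto_of_complete (Metric.cauchySeq_iff'.2 fun ε hε => ?_)
    obtain ⟨i, hi⟩ : ∃ i, dist x (TopologicalSpace.denseSeq (EuclideanSpace ℝ (Fin n)) i) <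
        min 1 (ε / (6 * (K + 1))) :=
      (TopologicalSpace.denseRange_denseSeq _).exists_dist_lt x (lt_min one_pos (by positivity))
    set d := TopologicalSpace.denseSeq (EuclideanSpace ℝ (Fin n)) i
    have hi1 : d ∈ closedBall x 1 := by
      rw [mem_closedBall, dist_comm]; exact (hi.trans_le (min_le_left _ _)).le
    have hi2 : K * dist d x ≤ ε / 6 := by
      rw [dist_comm]
      calc K * dist x d ≤ (K + 1) * (ε / (6 * (K + 1))) :=
            mul_le_mul (by linarith) (hi.trans_le (min_le_right _ _)).le dist_nonneg (by linarith)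
        _ = ε / 6 := by field_simp
    obtain ⟨N, hN⟩ := eventually_atTop.1 (((hlip x).and (hbd d)).and
      ((hg i).eventually (Metric.ball_mem_nhds (g i) (by positivity : 0 < ε / 6))))
    refine ⟨N, fun j hj => ?_⟩
    have one : ∀ j ≥ N, |F (φ j) x - g i| < ε / 3 := fun j hj => by
      obtain ⟨⟨hl, h0, hM⟩, hgj⟩ := hN j hj
      rw [Real.dist_eq, show TopologicalSpace.denseSeq (EuclideanSpace ℝ (Fin n)) i = d from rfl,
        max_eq_left h0, min_eq_left hM] at hgj
      have h1 := abs_le.1 ((hl d hi1).trans hi2)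
      have h2 := abs_lt.1 hgj
      rw [abs_lt]
      constructor <;> linarith
    rw [Real.dist_eq]
    linarith [abs_sub_le (F (φ j) x) (g i) (F (φ N) x), one j hj, one N le_rfl,
      abs_sub_comm (g i) (F (φ N) x)]
  choose Fl hFl using hcau
  refine ⟨Fl, continuous_iff_continuousAt.2 fun z => ?_, fun x => ge_of_tendsto (hFl x)
    ((hbd x).mono fun j h => h.1), hFl⟩
  refine Metric.continuousAt_iff.2 fun ε hε => ⟨min 1 (ε / (2 * (K + 1))),
    lt_min one_pos (by positivity), fun {x} hx => ?_⟩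
  have h1 : |Fl x - Fl z| ≤ K * dist x z :=
    le_of_tendsto ((hFl x).sub (hFl z)).abs
      ((hlip z).mono fun j h => h x (hx.trans_le (min_le_left _ _)).le)
  rw [Real.dist_eq]
  calc |Fl x - Fl z| ≤ (K + 1) * (ε / (2 * (K + 1))) :=
        h1.trans (mul_le_mul (by linarith) (hx.trans_le (min_le_right _ _)).le dist_nonneg
          (by linarith))
    _ < ε := by field_simp; linarith

/-- The mean value identity passes to a pointwise limit. -/
theorem identity_of_limit {F : ℕ → EuclideanSpace ℝ (Fin n) → ℝ} {M L : ℝ}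
    (hF : ∀ k, ContDiff ℝ 2 (F k)) (hb : EvBounded F M L) {φ : ℕ → ℕ} (hφ : StrictMono φ)
    {Fl fl : EuclideanSpace ℝ (Fin n) → ℝ}
    (hFl : ∀ x, Tendsto (fun j => F (φ j) x) atTop (𝓝 (Fl x)))
    (hfl : ∀ x, Tendsto (fun j => -Δ (F (φ j)) x) atTop (𝓝 (fl x)))
    (x : EuclideanSpace ℝ (Fin n)) {R : ℝ} (hR : 0 < R) :
    avg Fl x R + potT R fl x = Fl x * ∫ y : EuclideanSpace ℝ (Fin n), avgW y := by
  have hball : ∀ᶠ j in atTop, ∀ s ∈ Icc (0 : ℝ) R, ∀ y : EuclideanSpace ℝ (Fin n), ‖y‖ ≤ 1 →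
      0 ≤ F (φ j) (x + s • y) ∧ F (φ j) (x + s • y) ≤ M ∧ |Δ (F (φ j)) (x + s • y)| ≤ L :=
    (hφ.tendsto_atTop.eventually (hb (‖x‖ + R))).mono fun j hj s hs y hy => hj _ (by
      refine (norm_add_le _ _).trans ?_
      rw [norm_smul, Real.norm_of_nonneg hs.1]
      linarith [mul_le_mul hs.2 hy (norm_nonneg _) hR.le])
  have havg : Tendsto (fun j => avg (F (φ j)) x R) atTop (𝓝 (avg Fl x R)) := by
    refine tendsto_integral_filter_of_dominated_convergence (fun y => M * avgW y)
      (Eventually.of_forall fun j => ?_) ?_ (continuous_avgW.integrable_of_hasCompactSupport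
        hasCompactSupport_avgW |>.const_mul M) (ae_of_all _ fun y => (hFl _).mul_const _)
    · exact (integrable_mul_avgW (g := fun y => F (φ j) (x + R • y))
        (by have := (hF (φ j)).continuous; fun_prop)).aestronglyMeasurable
    · filter_upwards [hball] with j hj
      refine ae_of_all _ fun y => ?_
      rw [Real.norm_eq_abs, abs_mul, abs_of_nonneg (avgW_nonneg y)]
      rcases le_or_gt ‖y‖ 1 with hy | hy
      · obtain ⟨h1, h2, -⟩ := hj R ⟨hR.le, le_rfl⟩ y hy
        exact mul_le_mul_of_nonneg_right (abs_le.2 ⟨by linarith, h2⟩) (avgW_nonneg y)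
      · simp [avgW_eq_zero hy.le]
  have hpot : Tendsto (fun j => potT R (fun z => -Δ (F (φ j)) z) x) atTop (𝓝 (potT R fl x)) := by
    refine intervalIntegral.tendsto_integral_filter_of_dominated_convergence
      (fun _ => R * (L * ∫ y : EuclideanSpace ℝ (Fin n), avgPot y))
      (Eventually.of_forall fun j => ?_) ?_ intervalIntegrable_const ?_
    · exact (continuous_id.mul (continuous_avgPot_integral
        (continuous_laplacian (hF (φ j))).neg x)).aestronglyMeasurable
    · filter_upwards [hball] with j hj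
      refine ae_of_all _ fun s hs => ?_
      rw [uIoc_of_le hR.le] at hs
      rw [norm_mul, Real.norm_of_nonneg hs.1.le, ← integral_const_mul L]
      refine mul_le_mul hs.2 (norm_integral_le_of_norm_le
        ((continuous_avgPot.integrable_of_hasCompactSupport hasCompactSupport_avgPot).const_mul L)
        (ae_of_all _ fun y => ?_)) (norm_nonneg _) hR.le
      rw [Real.norm_eq_abs, abs_mul, abs_of_nonneg (avgPot_nonneg y), abs_neg]
      rcases le_or_gt ‖y‖ 1 with hy | hy
      · exact mul_le_mul_of_nonneg_right (hj s ⟨hs.1.le, hs.2⟩ y hy).2.2 (avgPot_nonneg y)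
      · simp [avgPot_eq_zero hy.le]
    · refine ae_of_all _ fun s hs => Tendsto.const_mul s ?_
      rw [uIoc_of_le hR.le] at hs
      refine tendsto_integral_filter_of_dominated_convergence (fun y => L * avgPot y)
        (Eventually.of_forall fun j => ?_) ?_ ((continuous_avgPot.integrable_of_hasCompactSupport
          hasCompactSupport_avgPot).const_mul L) (ae_of_all _ fun y => (hfl _).mul_const _)
      · exact (integrable_mul_avgPot (g := fun y => -Δ (F (φ j)) (x + s • y))
          (by have := continuous_laplacian (hF (φ j)); fun_prop)).aestronglyMeasurable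
      · filter_upwards [hball] with j hj
        refine ae_of_all _ fun y => ?_
        rw [Real.norm_eq_abs, abs_mul, abs_of_nonneg (avgPot_nonneg y), abs_neg]
        rcases le_or_gt ‖y‖ 1 with hy | hy
        · exact mul_le_mul_of_nonneg_right (hj s ⟨hs.1.le, hs.2⟩ y hy).2.2 (avgPot_nonneg y)
        · simp [avgPot_eq_zero hy.le]
  exact tendsto_nhds_unique (havg.add hpot)
    (((hFl x).mul_const _).congr fun j => (avg_add_potT (hF (φ j)) x R).symm)

/-- If the Lane–Emden system has no positive solution on the space, then all solutions of the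
weighted system are bounded by one constant on `1/2 ≤ ‖x‖ ≤ 3`. -/
theorem exists_sup_bound (hp : 0 < p) (hq : 0 < q) (hpq : 1 < p * q)
    (hLE : ¬ ∃ u v : EuclideanSpace ℝ (Fin n) → ℝ,
      Continuous u ∧ Continuous v ∧ ContDiffOn ℝ 2 u {0}ᶜ ∧ ContDiffOn ℝ 2 v {0}ᶜ ∧
      (∀ x, 0 < u x) ∧ (∀ x, 0 < v x) ∧ (∀ x, x ≠ 0 → Δ u x = -(v x) ^ p) ∧
      (∀ x, x ≠ 0 → Δ v x = -(u x) ^ q)) :
    ∃ C : ℝ, ∀ u v : EuclideanSpace ℝ (Fin n) → ℝ, IsSolAB A B p q u v →
      ∀ x, 1 / 2 ≤ ‖x‖ → ‖x‖ ≤ 3 → u x ≤ C ∧ v x ≤ C := by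
  by_contra hno
  have hd : 0 < p * q - 1 := by linarith
  set α := 2 * (p + 1) / (p * q - 1) with hα
  set β := 2 * (q + 1) / (p * q - 1) with hβ
  have hα0 : 0 < α := div_pos (by linarith) hd
  have hβ0 : 0 < β := div_pos (by linarith) hd
  obtain ⟨x, l, U, V, hx, hl, hUV, hball⟩ := exists_blow_seq hp hq hpq hα hβ hno
  -- the weights are bounded above
  obtain ⟨c, hc⟩ : ∃ c, ∀ w : EuclideanSpace ℝ (Fin n), 1 / 8 ≤ ‖w‖ → ‖w‖ ≤ 5 →
      ‖w‖ ^ A ≤ c ∧ ‖w‖ ^ B ≤ c := by
    have hk : IsCompact (Icc (1 / 8 : ℝ) 5) := isCompact_Icc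
    have hcont : ContinuousOn (fun r : ℝ => r ^ A + r ^ B) (Icc (1 / 8) 5) :=
      ContinuousOn.add
        (continuousOn_id.rpow_const fun r hr => Or.inl (by simp only [id]; linarith [hr.1]))
        (continuousOn_id.rpow_const fun r hr => Or.inl (by simp only [id]; linarith [hr.1]))
    obtain ⟨c, hc⟩ := hk.exists_bound_of_continuousOn hcont
    refine ⟨c, fun w h1 h2 => ?_⟩
    have := (le_abs_self _).trans (hc ‖w‖ ⟨h1, h2⟩)
    constructor <;>
      linarith [Real.rpow_nonneg (norm_nonneg w) A, Real.rpow_nonneg (norm_nonneg w) B]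
  have hw : ∀ R : ℝ, ∀ᶠ k in atTop, ∀ z : EuclideanSpace ℝ (Fin n), ‖z‖ ≤ R →
      1 / 8 ≤ ‖x k + l k • z‖ ∧ ‖x k + l k • z‖ ≤ 5 := by
    intro R
    have ht : Tendsto (fun k => |l k| * R) atTop (𝓝 0) := by
      simpa using hl.abs.mul_const R
    filter_upwards [ht.eventually_lt_const (show (0 : ℝ) < 1 / 8 by norm_num)] with k hk z hz
    have h1 : ‖l k • z‖ < 1 / 8 := by
      rw [norm_smul, Real.norm_eq_abs]
      exact lt_of_le_of_lt (mul_le_mul_of_nonneg_left hz (abs_nonneg _)) hk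
    have h2 := norm_sub_le_norm_add (x k) (l k • z)
    have h3 := norm_add_le (x k) (l k • z)
    constructor <;> linarith [(hx k).1, (hx k).2]
  set L := c * ((2 ^ β) ^ p) + c * ((2 ^ α) ^ q) with hL
  have hUb : EvBounded U (2 ^ α) L ∧ EvBounded V (2 ^ β) L := by
    constructor <;> intro R <;> filter_upwards [hball R, hw R] with k hk hk' z hz <;>
      obtain ⟨⟨u0, uM, v0, vM⟩, eu, ev⟩ := hk z hz <;>
      obtain ⟨cA, cB⟩ := hc _ (hk' z hz).1 (hk' z hz).2
    · refine ⟨u0.le, uM, ?_⟩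
      rw [eu, abs_neg, abs_of_nonneg (by positivity), hL]
      refine (mul_le_mul cA (Real.rpow_le_rpow v0.le vM hp.le) (by positivity)
        ((Real.rpow_nonneg (norm_nonneg _) _).trans cA)).trans (le_add_of_nonneg_right ?_)
      exact mul_nonneg ((Real.rpow_nonneg (norm_nonneg _) _).trans cB) (by positivity)
    · refine ⟨v0.le, vM, ?_⟩
      rw [ev, abs_neg, abs_of_nonneg (by positivity), hL]
      refine (mul_le_mul cB (Real.rpow_le_rpow u0.le uM hq.le) (by positivity)
        ((Real.rpow_nonneg (norm_nonneg _) _).trans cB)).trans (le_add_of_nonneg_left ?_)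
      exact mul_nonneg ((Real.rpow_nonneg (norm_nonneg _) _).trans cA) (by positivity)
  -- the subsequence
  set d := TopologicalSpace.denseSeq (EuclideanSpace ℝ (Fin n)) with hdd
  set S : Set (EuclideanSpace ℝ (Fin n) × (ℕ → ℝ) × (ℕ → ℝ)) :=
    closedBall 0 4 ×ˢ (univ.pi fun _ => Icc 0 (2 ^ α)) ×ˢ (univ.pi fun _ => Icc 0 (2 ^ β)) with hS
  have hSc : IsCompact S := (isCompact_closedBall _ _).prod
    ((isCompact_univ_pi fun _ => isCompact_Icc).prod (isCompact_univ_pi fun _ => isCompact_Icc))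
  have hmem : ∀ k, (x k, (fun i => min (max (U k (d i)) 0) (2 ^ α)),
      fun i => min (max (V k (d i)) 0) (2 ^ β)) ∈ S := fun k => by
    refine ⟨by simpa using (hx k).2, fun i _ => ?_, fun i _ => ?_⟩ <;>
      exact ⟨le_min (le_max_right _ _) (by positivity), min_le_right _ _⟩
  obtain ⟨⟨xl, gU, gV⟩, -, φ, hφ, ht⟩ := hSc.tendsto_subseq hmem
  have htx : Tendsto (fun j => x (φ j)) atTop (𝓝 xl) := ht.fst_nhds
  obtain ⟨Ul, hUlc, hUl0, hUl⟩ := exists_limit (fun k => (hUV k).1) hUb.1 hφ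
    fun i => tendsto_pi_nhds.1 ht.snd_nhds.fst_nhds i
  obtain ⟨Vl, hVlc, hVl0, hVl⟩ := exists_limit (fun k => (hUV k).2.1) hUb.2 hφ
    fun i => tendsto_pi_nhds.1 ht.snd_nhds.snd_nhds i
  have hxl : 1 / 4 ≤ ‖xl‖ := ge_of_tendsto htx.norm (Eventually.of_forall fun j => (hx _).1)
  set a := ‖xl‖ ^ A with ha
  set b := ‖xl‖ ^ B with hb
  have ha0 : 0 < a := Real.rpow_pos_of_pos (by linarith) _
  have hb0 : 0 < b := Real.rpow_pos_of_pos (by linarith) _
  have hwl : ∀ (W : ℝ) (z : EuclideanSpace ℝ (Fin n)),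
      Tendsto (fun j => ‖x (φ j) + l (φ j) • z‖ ^ W) atTop (𝓝 (‖xl‖ ^ W)) := fun W z => by
    refine Tendsto.rpow_const ?_ (Or.inl (by linarith))
    have := (htx.add ((hl.comp hφ.tendsto_atTop).smul_const z)).norm
    simpa using this
  have hfU : ∀ z, Tendsto (fun j => -Δ (U (φ j)) z) atTop (𝓝 (a * Vl z ^ p)) := fun z => by
    refine ((hwl A z).mul ((hVl z).rpow_const (Or.inr hp.le))).congr' ?_
    filter_upwards [hφ.tendsto_atTop.eventually (hball ‖z‖)] with j hj
    rw [(hj z le_rfl).2.1, neg_neg]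
  have hfV : ∀ z, Tendsto (fun j => -Δ (V (φ j)) z) atTop (𝓝 (b * Ul z ^ q)) := fun z => by
    refine ((hwl B z).mul ((hUl z).rpow_const (Or.inr hq.le))).congr' ?_
    filter_upwards [hφ.tendsto_atTop.eventually (hball ‖z‖)] with j hj
    rw [(hj z le_rfl).2.2, neg_neg]
  have idU : ∀ z R, 0 < R → avg Ul z R + potT R (fun y => a * Vl y ^ p) z =
      Ul z * ∫ y : EuclideanSpace ℝ (Fin n), avgW y := fun z R hR =>
    identity_of_limit (fun k => (hUV k).1) hUb.1 hφ hUl hfU z hR
  have idV : ∀ z R, 0 < R → avg Vl z R + potT R (fun y => b * Ul y ^ q) z =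
      Vl z * ∫ y : EuclideanSpace ℝ (Fin n), avgW y := fun z R hR =>
    identity_of_limit (fun k => (hUV k).2.1) hUb.2 hφ hVl hfV z hR
  have hfUc : Continuous fun y => a * Vl y ^ p :=
    continuous_const.mul (hVlc.rpow_const fun _ => Or.inr hp.le)
  have hfVc : Continuous fun y => b * Ul y ^ q :=
    continuous_const.mul (hUlc.rpow_const fun _ => Or.inr hq.le)
  -- normalisation and positivity
  have hone : Ul 0 ^ (1 / α) + Vl 0 ^ (1 / β) = 1 :=
    tendsto_nhds_unique (((hUl 0).rpow_const (Or.inr (by positivity))).add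
      ((hVl 0).rpow_const (Or.inr (by positivity))))
      (tendsto_const_nhds.congr fun j => ((hUV (φ j)).2.2).symm)
  have hfin : ∀ {F G : EuclideanSpace ℝ (Fin n) → ℝ} {c e : ℝ}, 0 < c → 0 < e →
      (∀ y, c * G y ^ e = 0) → (∀ y, 0 ≤ G y) → (∀ y, F y = 0) →
      ∀ {a₁ a₂ : ℝ}, 0 < a₁ → 0 < a₂ → F 0 ^ (1 / a₁) + G 0 ^ (1 / a₂) = 0 := by
    intro F G c e hc he hG hG0 hF a₁ a₂ h1 h2
    have : G 0 = 0 := by
      by_contra hne
      exact (mul_pos hc (Real.rpow_pos_of_pos (lt_of_le_of_ne (hG0 0) (Ne.symm hne)) e)).ne' (hG 0)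
    rw [hF, this, Real.zero_rpow (one_div_pos.2 h1).ne', Real.zero_rpow (one_div_pos.2 h2).ne',
      add_zero]
  have hUpos : ∀ z, 0 < Ul z := fun z => lt_of_le_of_ne (hUl0 z) fun h0 => by
    obtain ⟨hu, hv⟩ := eq_zero_of_identity idU hUlc hfUc hUl0
      (fun y => mul_nonneg ha0.le (Real.rpow_nonneg (hVl0 y) _)) h0.symm
    linarith [hfin ha0 hp hv hVl0 hu hα0 hβ0]
  have hVpos : ∀ z, 0 < Vl z := fun z => lt_of_le_of_ne (hVl0 z) fun h0 => by
    obtain ⟨hv, hu⟩ := eq_zero_of_identity idV hVlc hfVc hVl0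
      (fun y => mul_nonneg hb0.le (Real.rpow_nonneg (hUl0 y) _)) h0.symm
    linarith [hfin hb0 hq hu hUl0 hv hβ0 hα0]
  -- regularity and equations
  have hU1 := contDiff_one_of_identity idU hUlc hfUc
  have hV1 := contDiff_one_of_identity idV hVlc hfVc
  have hU2 := contDiff_two_of_identity idU hUlc
    (contDiff_const.mul (hV1.rpow_const_of_ne fun y => (hVpos y).ne'))
  have hV2 := contDiff_two_of_identity idV hVlc
    (contDiff_const.mul (hU1.rpow_const_of_ne fun y => (hUpos y).ne'))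
  have eU := laplacian_of_identity idU hU2 hfUc
  have eV := laplacian_of_identity idV hV2 hfVc
  -- scaling to the system without constants
  set s₂ := (b * a ^ q) ^ (p * q - 1)⁻¹ with hs₂
  set s₁ := s₂ ^ p / a with hs₁
  have hs20 : 0 < s₂ := by positivity
  have hs10 : 0 < s₁ := by positivity
  have e2 : s₂ * b = s₁ ^ q := by
    rw [hs₁, Real.div_rpow (by positivity) ha0.le, ← Real.rpow_mul hs20.le,
      show p * q = 1 + (p * q - 1) by ring, Real.rpow_add hs20, Real.rpow_one, eq_div_iff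
      (by positivity), hs₂, ← Real.rpow_mul (x := b * a ^ q) (by positivity),
      inv_mul_cancel₀ hd.ne', Real.rpow_one]
    ring
  refine hLE ⟨fun z => s₁ * Ul z, fun z => s₂ * Vl z, continuous_const.mul hUlc,
    continuous_const.mul hVlc, (contDiff_const.mul hU2).contDiffOn,
    (contDiff_const.mul hV2).contDiffOn, fun z => mul_pos hs10 (hUpos z),
    fun z => mul_pos hs20 (hVpos z), fun z _ => ?_, fun z _ => ?_⟩
  · show Δ (fun w => s₁ * Ul w) z = _
    rw [show (fun w => s₁ * Ul w) = s₁ • Ul from rfl,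
      InnerProductSpace.laplacian_smul s₁ hU2.contDiffAt, eU, Real.mul_rpow hs20.le (hVl0 z),
      hs₁, smul_eq_mul]
    field_simp
  · show Δ (fun w => s₂ * Vl w) z = _
    rw [show (fun w => s₂ * Vl w) = s₂ • Vl from rfl,
      InnerProductSpace.laplacian_smul s₂ hV2.contDiffAt, eV, Real.mul_rpow hs10.le (hUl0 z),
      ← e2, smul_eq_mul]
    ring

end Vale.Agent.P100.Weighted
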