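import Mathlib
import Vale.Agent.P100.SoupletAB.Main

/-!
# Uniform bounds on the annulus rule out solutions

If all positive solutions are bounded by one constant on `1/2 ≤ ‖x‖ ≤ 3`, their gradients are
bounded on `1 ≤ ‖x‖ ≤ 2`, so Rellich–Pohozaev bounds the energy of the unit ball uniformly and
scaling leaves no solution.
-/

open MeasureTheory Filter Set Metric Topology

namespace Vale.Agent.P100.Weighted

open SoupletAB Souplet

variable {n : ℕ} {A B p q : ℝ}

/-- The potential of exponent `1 - n` of a bounded function on the annulus is bounded. -/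
theorem exists_pot_bound (hn : 3 ≤ n) :
    ∃ c : ℝ, 0 ≤ c ∧ ∀ (x : EuclideanSpace ℝ (Fin n)) (g : EuclideanSpace ℝ (Fin n) → ℝ) (C : ℝ),
      1 ≤ ‖x‖ → ‖x‖ ≤ 2 → (∀ y, 0 ≤ g y) → (∀ y ∈ ann n 3, g y ≤ C) →
        (∫ y in ann n 3, ‖x - y‖ ^ (1 - (n : ℝ)) * g y) ≤ c * C := by
  classical
  set K := closedBall (0 : EuclideanSpace ℝ (Fin n)) 5 with hK
  have hi : IntegrableOn (fun z : EuclideanSpace ℝ (Fin n) => ‖z‖ ^ (1 - (n : ℝ))) K := by
    have := integrableOn_pot (μ := (volume : Measure (EuclideanSpace ℝ (Fin n))))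
      (by rw [finrank_euclideanSpace_fin]; omega) (isCompact_closedBall (0 : EuclideanSpace ℝ (Fin n)) 5)
      (continuous_const (y := (1 : ℝ))) (0 : EuclideanSpace ℝ (Fin n)) (m := (n : ℝ) - 1)
      (by rw [finrank_euclideanSpace_fin]; linarith)
    simpa [neg_sub] using this
  refine ⟨∫ z in K, ‖z‖ ^ (1 - (n : ℝ)), setIntegral_nonneg isClosed_closedBall.measurableSet
    fun z _ => by positivity, fun x g C hx1 hx2 hg hgC => ?_⟩
  set ψ := K.indicator fun z : EuclideanSpace ℝ (Fin n) => ‖z‖ ^ (1 - (n : ℝ)) with hψ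
  have hψi : Integrable ψ := (integrable_indicator_iff isClosed_closedBall.measurableSet).2 hi
  have hψ0 : ∀ z, 0 ≤ ψ z := fun z => indicator_nonneg (fun w _ => by positivity) z
  have hC0 : 0 ≤ C := by
    obtain ⟨y, hy⟩ : (ann n 3).Nonempty := ⟨x, by linarith, by linarith⟩
    exact (hg y).trans (hgC y hy)
  have hψx : Integrable fun y => ψ (x - y) := hψi.comp_sub_left x
  have h1 : (∫ y in ann n 3, ‖x - y‖ ^ (1 - (n : ℝ)) * g y) ≤ ∫ y in ann n 3, ψ (x - y) * C := by
    refine integral_mono_of_nonneg (ae_of_all _ fun y => mul_nonneg (by positivity) (hg y))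
      (hψx.mul_const C).integrableOn ?_
    filter_upwards [ae_restrict_mem (measurableSet_ann n 3)] with y hy
    have hmem : x - y ∈ K := by
      rw [hK, mem_closedBall_zero_iff]
      exact (norm_sub_le x y).trans (by linarith [hy.2])
    simp only [hψ, indicator_of_mem hmem]
    exact mul_le_mul_of_nonneg_left (hgC y hy) (by positivity)
  refine h1.trans ((setIntegral_le_integral (hψx.mul_const C)
    (ae_of_all _ fun y => mul_nonneg (hψ0 _) hC0)).trans ?_)
  rw [integral_mul_const, integral_sub_left_eq_self ψ volume x,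
    integral_indicator isClosed_closedBall.measurableSet]

/-- Uniformly bounded on the annulus, and subcritical: no solution. -/
theorem no_solution_of_sup_bound (hn : 3 ≤ n) (hA : -2 < A) (hB : -2 < B) (hp : 0 < p)
    (hq : 0 < q) (hpq : 1 < p * q)
    (hsub : (n : ℝ) - 2 < ((n : ℝ) + A) / (p + 1) + ((n : ℝ) + B) / (q + 1))
    (hbd : ∃ C : ℝ, ∀ u v : EuclideanSpace ℝ (Fin n) → ℝ, IsSolAB A B p q u v →
      ∀ x, 1 / 2 ≤ ‖x‖ → ‖x‖ ≤ 3 → u x ≤ C ∧ v x ≤ C) :
    ¬ ∃ u v : EuclideanSpace ℝ (Fin n) → ℝ, IsSolAB A B p q u v := by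
  obtain ⟨C₀, hC₀⟩ := hbd
  set C := max C₀ 0 with hCdef
  have hC : 0 ≤ C := le_max_right _ _
  obtain ⟨CL, M, hCL, -, hloc⟩ := localAB (n := n) (A := A) (B := B) (p := p) (q := q) hn
  obtain ⟨c, hc, hpot⟩ := exists_pot_bound hn
  set G : ℝ := CL * (c * (C ^ p + C ^ q)) + CL * (C * volume.real (ann n 3)) with hG
  have hG0 : 0 ≤ G := by positivity
  set D : ℝ := C ^ (q + 1) + C ^ (p + 1) + G * G + C * G + C * G with hD
  have hD0 : 0 ≤ D := by positivity
  have : Nontrivial (EuclideanSpace ℝ (Fin n)) := Module.nontrivial_of_finrank_pos (R := ℝ)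
    (by rw [finrank_euclideanSpace_fin]; omega)
  set S := (volume : Measure (EuclideanSpace ℝ (Fin n))).toSphere univ with hS
  have hSt : S ≠ ⊤ := measure_ne_top _ _
  set D' : ℝ := D * S.toReal with hD'
  refine nonexistence_of_unit_boundAB (by omega) hA hB hp hq hpq hsub
    (C := pohoConstAB n A B p q * 2 ^ (n - 1) / marginAB n A B p q * D') fun u v h => ?_
  have hu : ∀ y ∈ ann n 3, u y ≤ C ∧ v y ≤ C := fun y hy =>
    ⟨((hC₀ u v h y hy.1 hy.2).1).trans (le_max_left _ _),
      ((hC₀ u v h y hy.1 hy.2).2).trans (le_max_left _ _)⟩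
  obtain ⟨hlu, hlv⟩ := hloc u v h
  have grad : ∀ {f g : EuclideanSpace ℝ (Fin n) → ℝ} {e : ℝ}, 0 < e → Continuous f →
      (∀ y, 0 < g y) → (∀ y ∈ ann n 3, f y ≤ C ∧ g y ≤ C) →
      ∀ x, 1 ≤ ‖x‖ → ‖x‖ ≤ 2 → ∀ d,
      d ≤ CL * (∫ y in ann n 3, ‖x - y‖ ^ (1 - (n : ℝ)) * g y ^ e) +
        CL * (1 : ℝ) ^ (-M) * (∫ y in ann n 3, f y) →
      d ≤ CL * (c * C ^ e) + CL * (C * volume.real (ann n 3)) := by
    intro f g e he hfc hg hb x hx1 hx2 d hd
    rw [Real.one_rpow, mul_one] at hd
    refine hd.trans (add_le_add (mul_le_mul_of_nonneg_left (hpot x _ _ hx1 hx2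
      (fun y => Real.rpow_nonneg (hg y).le _)
      fun y hy => Real.rpow_le_rpow (hg y).le (hb y hy).2 he.le) hCL)
      (mul_le_mul_of_nonneg_left ?_ hCL))
    calc (∫ y in ann n 3, f y) ≤ ∫ _ in ann n 3, C :=
          setIntegral_mono_on (hfc.continuousOn.integrableOn_compact (isCompact_ann n 3))
            (integrableOn_const (isCompact_ann n 3).measure_lt_top.ne) (measurableSet_ann n 3)
            fun y hy => (hb y hy).1
      _ = C * volume.real (ann n 3) := by rw [setIntegral_const, smul_eq_mul, mul_comm]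
  have hd : ∀ x : EuclideanSpace ℝ (Fin n), 1 ≤ ‖x‖ → ‖x‖ ≤ 2 → sphereDens p q u v x ≤ D := by
    intro x hx1 hx2
    have hr : (2 : ℝ) + 1 = 3 := by norm_num
    have h1 := (hlu 2 1 one_le_two one_pos (by norm_num) x hx1 (by linarith)).2
    have h2 := (hlv 2 1 one_le_two one_pos (by norm_num) x hx1 (by linarith)).2
    rw [hr] at h1 h2
    have g1 : ‖fderiv ℝ u x‖ ≤ G := by
      have := grad hp h.contU h.posV hu x hx1 hx2 _ h1
      have : 0 ≤ CL * (c * C ^ q) := by positivity
      rw [hG]; linarith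
    have g2 : ‖fderiv ℝ v x‖ ≤ G := by
      have := grad hq h.contV h.posU (fun y hy => (hu y hy).symm) x hx1 hx2 _ h2
      have : 0 ≤ CL * (c * C ^ p) := by positivity
      rw [hG]; linarith
    obtain ⟨hux, hvx⟩ := hu x ⟨by linarith, by linarith⟩
    have hup := (h.posU x).le
    have hvp := (h.posV x).le
    rw [sphereDens, energy, hD]
    gcongr
  have hK := ball_bound_of_good_radiiAB hn hp hq hA hB hsub h (isCompact_Icc (a := (1 : ℝ)) (b := 2))
    le_rfl (Subset.refl _) (D := D') (by positivity) fun r hr => by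
      calc slice volume (fun x => ENNReal.ofReal (sphereDens p q u v x)) r
          ≤ ∫⁻ _ : sphere (0 : EuclideanSpace ℝ (Fin n)) 1, ENNReal.ofReal D
              ∂(volume : Measure (EuclideanSpace ℝ (Fin n))).toSphere := by
            refine lintegral_mono fun θ => ENNReal.ofReal_le_ofReal ?_
            have hθ : ‖r • (θ : EuclideanSpace ℝ (Fin n))‖ = r := by
              rw [norm_smul, norm_eq_of_mem_sphere θ, mul_one,
                Real.norm_of_nonneg (by linarith [hr.1])]
            exact hd _ (by rw [hθ]; exact hr.1) (by rw [hθ]; exact hr.2)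
        _ = ENNReal.ofReal D' := by
            rw [lintegral_const, hD', ENNReal.ofReal_mul hD0, ENNReal.ofReal_toReal hSt]
  rw [Real.volume_real_Icc_of_le one_le_two, show (2 : ℝ) - 1 = 1 by norm_num, one_mul] at hK
  exact hK

end Vale.Agent.P100.Weighted
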