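import Vale.Agent.P100.Weighted.SpheresStep
import Vale.Agent.P100.SuperW

/-!
The weighted system has no positive entire solution when both scaling exponents exceed `(n - 2) / 2`.
-/

open InnerProductSpace Laplacian Filter Topology Set Metric

namespace Vale.Agent.P100.Weighted.Spheres

variable {E : Type*} [NormedAddCommGroup E] [InnerProductSpace ℝ E] [FiniteDimensional ℝ E]

variable {u v : E → ℝ} {w p : ℝ}

/-- A power lower bound on one unknown gives one on the other. -/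
theorem Eqn.bootstrap (h : Eqn u v w p) (hp : 0 < p) {s : ℝ}
    (hlow : ∃ c > 0, ∃ R > 0, ∀ z : E, R ≤ ‖z‖ → c * ‖z‖ ^ s ≤ v z) :
    ∃ c > 0, ∃ R > 0, ∀ z : E, R ≤ ‖z‖ → c * ‖z‖ ^ (2 + w + p * s) ≤ u z := by
  obtain ⟨c, hc, R, hR, hv⟩ := hlow
  set e := w + p * s with he
  set n : ℝ := (Module.finrank ℝ E : ℝ) with hn
  set B := min ((1 / 2 : ℝ) ^ e) ((3 / 2 : ℝ) ^ e) * c ^ p with hB
  have hB0 : 0 < B := by
    have : 0 < min ((1 / 2 : ℝ) ^ e) ((3 / 2 : ℝ) ^ e) := lt_min (by positivity) (by positivity)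
    positivity
  refine ⟨B / (4 * (4 * n + 4)), by positivity, 2 * R, by positivity, fun x hx => ?_⟩
  set r := ‖x‖ with hr
  have hrp : 0 < r := by linarith
  set d := r / 2 with hd
  set κ := B * r ^ e / (4 * n + 4) with hκ
  have hκ0 : 0 < κ := by positivity
  have hq : ∀ z, ContDiffAt ℝ 2 (fun z : E => ‖z + (-x)‖ ^ 2) z := fun z =>
    ((contDiff_id.add contDiff_const).norm_sq ℝ).contDiffAt
  have hball : ∀ z ∈ closedBall x d, r / 2 ≤ ‖z‖ ∧ ‖z‖ ≤ 3 / 2 * r := fun z hz => by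
    rw [mem_closedBall, dist_eq_norm] at hz
    have := norm_le_norm_add_norm_sub' x z
    have := norm_le_norm_add_norm_sub' z x
    rw [norm_sub_rev x z] at *
    constructor <;> linarith
  have hne : ∀ z ∈ closedBall x d, z ≠ 0 := fun z hz =>
    ne_zero_of_le (by linarith) (hball z hz).1
  have hlap : ∀ z ∈ ball x d, Δ (fun z => u z + κ • ‖z + (-x)‖ ^ 2) z < 0 := by
    intro z hz
    have hz' := ball_subset_closedBall hz
    obtain ⟨a, b⟩ := hball z hz'
    have hzp : 0 < ‖z‖ := by linarith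
    rw [show Δ (fun z => u z + κ • ‖z + (-x)‖ ^ 2) z = _ from
        (h.contDiffAt (hne z hz')).laplacian_add ((hq z).const_smul κ),
      show Δ (fun z => κ • ‖z + (-x)‖ ^ 2) z = _ from laplacian_smul κ (hq z),
      h.lap z (hne z hz'), smul_eq_mul,
      show Δ (fun z : E => ‖z + (-x)‖ ^ 2) z = 2 * n by
        have := laplacian_comp_isometry (u := fun y : E => ‖y‖ ^ 2) (-x)
          (LinearIsometryEquiv.refl ℝ E) (x := z) (contDiff_norm_sq ℝ).contDiffAt
        simp only [LinearIsometryEquiv.coe_refl, id_eq, Super.lap_norm_sq, add_comm (-x)] at this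
        exact this]
    have h2 : B * r ^ e ≤ ‖z‖ ^ w * v z ^ p := by
      calc B * r ^ e = c ^ p * (min ((1 / 2 : ℝ) ^ e) ((3 / 2 : ℝ) ^ e) * r ^ e) := by ring
        _ ≤ c ^ p * ‖z‖ ^ e := by
          refine mul_le_mul_of_nonneg_left ?_ (by positivity)
          rw [show ‖z‖ = (‖z‖ / r) * r by field_simp, Real.mul_rpow (by positivity) hrp.le]
          refine mul_le_mul_of_nonneg_right ?_ (by positivity)
          rcases le_total 0 e with h0 | h0
          · exact (min_le_left _ _).trans (Real.rpow_le_rpow (by norm_num)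
              (by rw [le_div_iff₀ hrp]; linarith) h0)
          · exact (min_le_right _ _).trans (Real.rpow_le_rpow_of_nonpos (by positivity)
              (by rw [div_le_iff₀ hrp]; linarith) h0)
        _ = ‖z‖ ^ w * (c * ‖z‖ ^ s) ^ p := by
          rw [Real.mul_rpow hc.le (by positivity), ← Real.rpow_mul hzp.le, mul_comm s p, he,
            Real.rpow_add hzp]
          ring
        _ ≤ _ := mul_le_mul_of_nonneg_left (Real.rpow_le_rpow (by positivity)
            (hv z (by linarith)) hp.le) (by positivity)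
    have h3 : κ * (2 * n) < B * r ^ e := by
      rw [hκ, div_mul_eq_mul_div, div_lt_iff₀ (by positivity)]
      have hn0 : 0 ≤ n := Nat.cast_nonneg _
      exact mul_lt_mul_of_pos_left (by linarith) (by positivity)
    linarith
  have key := Super.min_principle (isCompact_closedBall x d) isOpen_ball ball_subset_closedBall
    (f := fun z => u z + κ • ‖z + (-x)‖ ^ 2)
    (fun z hz => ((h.contDiffAt (hne z hz)).add ((hq z).const_smul κ)).continuousAt.continuousWithinAt)
    (fun z hz => (h.contDiffAt (hne z (ball_subset_closedBall hz))).add ((hq z).const_smul κ))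
    hlap (m := κ * d ^ 2) (fun z hz hzU => by
      have : ‖z + (-x)‖ = d := by
        rw [← sub_eq_add_neg, ← dist_eq_norm]
        exact le_antisymm (mem_closedBall.1 hz) (not_lt.1 hzU)
      simp only [smul_eq_mul, this]
      linarith [h.pos z]) x (mem_closedBall_self (by positivity))
  simp only [add_neg_cancel, norm_zero, smul_eq_mul] at key
  refine le_trans (le_of_eq ?_) (key.trans_eq (by ring))
  rw [hκ, hd, show 2 + w + p * s = e + 2 by rw [he]; ring, Real.rpow_add hrp, Real.rpow_two]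
  field_simp
  ring

/-- All spheres are good. -/
theorem good_all (hn : 3 ≤ Module.finrank ℝ E) {q A B k k' : ℝ} (h1 : Eqn u v A p)
    (h2 : Eqn v u B q) (hp : 0 < p) (hq : 0 < q) (hA : -2 < A) (hB : -2 < B)
    (hk : (Module.finrank ℝ E : ℝ) ≤ 2 * k + 2) (hk' : (Module.finrank ℝ E : ℝ) ≤ 2 * k' + 2)
    (hg : 0 < k + 2 + A - p * k') (hg' : 0 < k' + 2 + B - q * k) {l : ℝ} (hl : 0 < l) :
    Good k u l := by
  set S : Set ℝ := {L | 0 < L ∧ ∀ l ∈ Ioc 0 L, Good k u l ∧ Good k' v l} with hS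
  obtain ⟨L₁, hL₁, h1s⟩ := h1.exists_small (k := k) hn hp hA hk
  obtain ⟨L₂, hL₂, h2s⟩ := h2.exists_small (k := k') hn hq hB hk'
  have hne : min L₁ L₂ ∈ S := ⟨lt_min hL₁ hL₂, fun l hl =>
    ⟨h1s l ⟨hl.1, hl.2.trans (min_le_left _ _)⟩, h2s l ⟨hl.1, hl.2.trans (min_le_right _ _)⟩⟩⟩
  by_contra hbad
  have hbdd : BddAbove S := ⟨l, fun L hL => by
    by_contra hlt
    exact hbad (hL.2 l ⟨hl, (not_le.1 hlt).le⟩).1⟩
  set s := sSup S with hs
  have hs0 : 0 < s := (lt_min hL₁ hL₂).trans_le (le_csSup hbdd hne)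
  have hlt : ∀ l ∈ Ioo 0 s, Good k u l ∧ Good k' v l := fun l hl => by
    obtain ⟨L, hL, hlL⟩ := exists_lt_of_lt_csSup ⟨_, hne⟩ hl.2
    exact hL.2 l ⟨hl.1, hlL.le⟩
  have lim : ∀ (g : E → ℝ) (c : ℝ), Continuous g → (∀ l ∈ Ioo 0 s, Good c g l) → Good c g s := by
    intro g c hgc hg0 y hy
    have hy0 := ne_zero_of_le hs0 hy
    have hcont : ContinuousAt (fun l => kelv l c g y) s := by
      refine ContinuousAt.mul ?_ (hgc.continuousAt.comp (by fun_prop))
      exact ContinuousAt.rpow_const (by fun_prop) (Or.inl (by positivity))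
    refine le_of_tendsto (hcont.tendsto.mono_left (nhdsWithin_le_nhds (s := Iio s))) ?_
    filter_upwards [Ioo_mem_nhdsLT hs0] with l hl
    exact hg0 l hl y (hl.2.le.trans hy)
  have hle : ∀ l ∈ Ioc 0 s, Good k u l ∧ Good k' v l := fun l hl => by
    rcases hl.2.eq_or_lt with heq | hlts
    · rw [heq]
      exact ⟨lim u k h1.cont fun t ht => (hlt t ht).1, lim v k' h2.cont fun t ht => (hlt t ht).2⟩
    · exact hlt l ⟨hl.1, hlts⟩
  obtain ⟨δ₁, hδ₁, e1⟩ := h1.extend hn hp hk hg hs0 (fun l hl => (hle l hl).1)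
    (hle s ⟨hs0, le_rfl⟩).2
  obtain ⟨δ₂, hδ₂, e2⟩ := h2.extend hn hq hk' hg' hs0 (fun l hl => (hle l hl).2)
    (hle s ⟨hs0, le_rfl⟩).1
  have hmem : s + min δ₁ δ₂ ∈ S := ⟨by positivity, fun l hl => by
    rcases le_or_gt l s with a | a
    · exact hle l ⟨hl.1, a⟩
    · exact ⟨e1 l ⟨a, hl.2.trans (add_le_add_right (min_le_left _ _) _)⟩,
        e2 l ⟨a, hl.2.trans (add_le_add_right (min_le_right _ _) _)⟩⟩⟩
  linarith [le_csSup hbdd hmem, lt_min hδ₁ hδ₂]

/-- No solution with both scaling exponents above `(n - 2) / 2`, weights above `-2`. -/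
theorem no_solution_aux (hn : 3 ≤ Module.finrank ℝ E) {q A B : ℝ} (h1 : Eqn u v A p)
    (h2 : Eqn v u B q) (hp : 0 < p) (hq : 0 < q) (hpq : 1 < p * q) (hA : -2 < A) (hB : -2 < B)
    (ha : ((Module.finrank ℝ E : ℝ) - 2) / 2 < (2 * (p + 1) + A + p * B) / (p * q - 1))
    (hb : ((Module.finrank ℝ E : ℝ) - 2) / 2 < (2 * (q + 1) + B + q * A) / (p * q - 1)) :
    False := by
  have : Nontrivial E := Module.nontrivial_of_finrank_pos (R := ℝ) (by omega)
  have hpq0 : 0 < p * q - 1 := by linarith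
  set n : ℝ := (Module.finrank ℝ E : ℝ) with hn0
  set a := (2 * (p + 1) + A + p * B) / (p * q - 1) with hadef
  set b := (2 * (q + 1) + B + q * A) / (p * q - 1) with hbdef
  have ea : a * (p * q - 1) = 2 * (p + 1) + A + p * B := div_mul_cancel₀ _ hpq0.ne'
  have eb : b * (p * q - 1) = 2 * (q + 1) + B + q * A := div_mul_cancel₀ _ hpq0.ne'
  have hab : a + 2 + A = p * b :=
    mul_right_cancel₀ hpq0.ne' (by linear_combination ea - p * eb)
  have hba : b + 2 + B = q * a :=
    mul_right_cancel₀ hpq0.ne' (by linear_combination eb - q * ea)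
  set t := (1 / p + q) / 2 with htdef
  have ht0 : 0 < t := by positivity
  have hpt : 1 < p * t := by
    rw [htdef, mul_div_assoc', mul_add, mul_one_div, div_self hp.ne', lt_div_iff₀ two_pos]
    linarith
  have htq : t < q := by
    have : 1 / p < q := by rw [div_lt_iff₀ hp]; linarith [mul_comm p q]
    rw [htdef]; linarith
  set δ := min (a - (n - 2) / 2) ((b - (n - 2) / 2) / t) with hδ
  have hδ0 : 0 < δ := lt_min (by linarith) (div_pos (by linarith) ht0)
  have hδa : δ ≤ a - (n - 2) / 2 := min_le_left _ _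
  have hδb : δ * t ≤ b - (n - 2) / 2 := (le_div_iff₀ ht0).1 (min_le_right _ _)
  have hgood : ∀ l : ℝ, 0 < l → Good (a - δ) u l := fun l hl =>
    good_all hn h1 h2 hp hq hA hB (k' := b - δ * t) (by linarith) (by linarith)
      (by linarith [mul_pos hδ0 (sub_pos.2 hpt)]) (by linarith [mul_pos hδ0 (sub_pos.2 htq)]) hl
  obtain ⟨z0, -, hz0⟩ := (isCompact_sphere (0 : E) 1).exists_isMinOn
    (NormedSpace.sphere_nonempty.2 zero_le_one) h1.cont.continuousOn
  have hstep : ∀ N : ℕ, ∃ c > 0, ∃ R > 0, ∀ z : E, R ≤ ‖z‖ →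
      c * ‖z‖ ^ (-a + (p * q) ^ N * δ) ≤ u z := by
    intro N
    induction N with
    | zero =>
      refine ⟨u z0, h1.pos _, 1, one_pos, fun z hz => ?_⟩
      have hz1 : 0 < ‖z‖ := by linarith
      have h := hgood (√‖z‖) (Real.sqrt_pos.2 hz1) z
        ((Real.sqrt_le_sqrt_iff hz1.le).2 le_rfl |>.trans (Real.sqrt_le_iff.2
          ⟨hz1.le, by nlinarith⟩))
      have e : (√‖z‖) ^ 2 / ‖z‖ ^ 2 = ‖z‖⁻¹ := by rw [Real.sq_sqrt hz1.le]; field_simp
      rw [kelv, e, Real.inv_rpow hz1.le, ← Real.rpow_neg hz1.le] at h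
      refine le_trans ?_ h
      rw [pow_zero, one_mul, show -a + δ = -(a - δ) by ring, mul_comm]
      refine mul_le_mul_of_nonneg_left (hz0 ?_) (by positivity)
      rw [mem_sphere_zero_iff_norm, norm_smul, Real.norm_of_nonneg (by positivity),
        inv_mul_cancel₀ hz1.ne']
    | succ N ih =>
      obtain ⟨c, hc, R, hR, hz⟩ := h1.bootstrap hp (h2.bootstrap hq ih)
      refine ⟨c, hc, R, hR, fun z hzR => le_trans (le_of_eq ?_) (hz z hzR)⟩
      congr 2
      rw [pow_succ]
      linear_combination -hab - p * hba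
  obtain ⟨N, hN⟩ : ∃ N : ℕ, a + 1 ≤ (p * q) ^ N * δ := by
    obtain ⟨N, hN⟩ := pow_unbounded_of_one_lt ((a + 1) / δ) hpq
    exact ⟨N, ((div_le_iff₀ hδ0).1 hN.le)⟩
  obtain ⟨c, hc, R, hR, hlow⟩ := hstep N
  set T := max (max R 1) (u 0 / c + 1) with hT
  have hT1 : 1 ≤ T := (le_max_right R 1).trans (le_max_left _ _)
  have key := Super.min_principle_puncture (by omega) (isCompact_closedBall (0 : E) T) isOpen_ball
    ball_subset_closedBall h1.cont.continuousOn (fun x _ hx => h1.contDiffAt hx)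
    (fun x _ hx => by
      rw [h1.lap x hx]
      exact neg_neg_of_pos (mul_pos (Real.rpow_pos_of_pos (norm_pos_iff.2 hx) A)
        (Real.rpow_pos_of_pos (h1.posv x) p)))
    (m := c * T) (fun x hx hx' => by
      have hxT : ‖x‖ = T := le_antisymm (by simpa using hx) (by simpa using hx')
      refine le_trans ?_ (hlow x (by rw [hxT]; exact (le_max_left R 1).trans (le_max_left _ _)))
      rw [hxT]
      refine mul_le_mul_of_nonneg_left ?_ hc.le
      calc T = T ^ (1 : ℝ) := (Real.rpow_one T).symm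
        _ ≤ _ := Real.rpow_le_rpow_of_exponent_le hT1 (by linarith))
    0 (by simp; linarith)
  have h5 : u 0 / c + 1 ≤ T := le_max_right _ _
  have := mul_le_mul_of_nonneg_left h5 hc.le
  rw [mul_add, mul_div_cancel₀ _ hc.ne'] at this
  linarith

/-- There is no positive entire solution of the Hénon–Lane–Emden system, for arbitrary real
weights, when both scaling exponents exceed `(n - 2) / 2`. -/
theorem no_solution_of_half {n : ℕ} (hn : 3 ≤ n) {p q A B : ℝ} (hp : 0 < p) (hq : 0 < q)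
    (hpq : 1 < p * q)
    (ha : ((n : ℝ) - 2) / 2 < (2 * (p + 1) + A + p * B) / (p * q - 1))
    (hb : ((n : ℝ) - 2) / 2 < (2 * (q + 1) + B + q * A) / (p * q - 1)) :
    ¬ ∃ u v : EuclideanSpace ℝ (Fin n) → ℝ,
      Continuous u ∧ Continuous v ∧ ContDiffOn ℝ 2 u {0}ᶜ ∧ ContDiffOn ℝ 2 v {0}ᶜ ∧
      (∀ x, 0 < u x) ∧ (∀ x, 0 < v x) ∧ (∀ x, x ≠ 0 → Δ u x = -(‖x‖ ^ A * v x ^ p)) ∧
      (∀ x, x ≠ 0 → Δ v x = -(‖x‖ ^ B * u x ^ q)) := by
  rintro ⟨u, v, huc, hvc, hu, hv, hup, hvp, hul, hvl⟩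
  have hfr : Module.finrank ℝ (EuclideanSpace ℝ (Fin n)) = n := finrank_euclideanSpace_fin
  have h2n : 2 ≤ Module.finrank ℝ (EuclideanSpace ℝ (Fin n)) := by omega
  rcases le_or_gt A (-2) with hA | hA
  · exact Super.no_supersolutionW_le_neg_two h2n hp hA huc hvc hu hup hvp
      fun x hx => (hul x hx).le
  rcases le_or_gt B (-2) with hB | hB
  · exact Super.no_supersolutionW_le_neg_two h2n hq hB hvc huc hv hvp hup
      fun x hx => (hvl x hx).le
  exact no_solution_aux (u := u) (v := v) (by omega) ⟨huc, hvc, hu, hup, hvp, hul⟩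
    ⟨hvc, huc, hv, hvp, hup, hvl⟩ hp hq hpq hA hB (by rwa [hfr]) (by rwa [hfr])

end Vale.Agent.P100.Weighted.Spheres
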