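import Mathlib
import Vale.Agent.P100.Weighted.BlowUp
import Vale.Agent.P100.Weighted.FromBound
import Vale.Agent.P100.Weighted.SpheresMain
import Vale.Agent.P100.SoupletAB.Cases

/-!
# The weighted system: all cases, given the Lane–Emden theorem for one triple

Subcritical parameters have no positive solution when `n ≤ 3`, when `max (α, β) > n - 3`, when both
scaling exponents exceed `(n - 2) / 2`, or when the Lane–Emden system with the same exponents has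
none.
-/

open Laplacian

namespace Vale.Agent.P100.Weighted

/-- Nonpositive weights: weighted subcriticality gives the unweighted one. -/
theorem lane_sub_of_nonpos {n : ℕ} {A B p q : ℝ} (hn : 1 ≤ n) (hA : A ≤ 0) (hB : B ≤ 0)
    (hp : 0 < p) (hq : 0 < q)
    (hsub : (n : ℝ) - 2 < ((n : ℝ) + A) / (p + 1) + ((n : ℝ) + B) / (q + 1)) :
    ((n : ℝ) - 2) / n < 1 / (p + 1) + 1 / (q + 1) := by
  have hn' : (0 : ℝ) < n := by exact_mod_cast hn
  have h1 : ((n : ℝ) + A) / (p + 1) ≤ n / (p + 1) :=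
    div_le_div_of_nonneg_right (by linarith) (by linarith)
  have h2 : ((n : ℝ) + B) / (q + 1) ≤ n / (q + 1) :=
    div_le_div_of_nonneg_right (by linarith) (by linarith)
  rw [div_lt_iff₀ hn', add_mul, div_mul_eq_mul_div, div_mul_eq_mul_div, one_mul]
  linarith

/-- **All cases**, the Lane–Emden theorem for `(n, p, q)` being a hypothesis of the last one. -/
theorem no_solution_cases {n : ℕ} (hn : 2 ≤ n) {A B p q : ℝ} (hp : 0 < p) (hq : 0 < q)
    (h : p * q ≤ 1 ∨ A ≤ -2 ∨ B ≤ -2 ∨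
      ((n : ℝ) - 2 < ((n : ℝ) + A) / (p + 1) + ((n : ℝ) + B) / (q + 1) ∧
        (n ≤ 3 ∨ (n : ℝ) - 3 < max (2 * (p + 1) / (p * q - 1)) (2 * (q + 1) / (p * q - 1)) ∨
          (((n : ℝ) - 2) / 2 < (2 * (p + 1) + A + p * B) / (p * q - 1) ∧
            ((n : ℝ) - 2) / 2 < (2 * (q + 1) + B + q * A) / (p * q - 1)) ∨
          (3 ≤ n ∧ ¬ ∃ u v : EuclideanSpace ℝ (Fin n) → ℝ,
            Continuous u ∧ Continuous v ∧ ContDiffOn ℝ 2 u {0}ᶜ ∧ ContDiffOn ℝ 2 v {0}ᶜ ∧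
            (∀ x, 0 < u x) ∧ (∀ x, 0 < v x) ∧ (∀ x, x ≠ 0 → Δ u x = -(v x) ^ p) ∧
            (∀ x, x ≠ 0 → Δ v x = -(u x) ^ q))))) :
    ¬ ∃ u v : EuclideanSpace ℝ (Fin n) → ℝ,
      Continuous u ∧ Continuous v ∧ ContDiffOn ℝ 2 u {0}ᶜ ∧ ContDiffOn ℝ 2 v {0}ᶜ ∧
      (∀ x, 0 < u x) ∧ (∀ x, 0 < v x) ∧ (∀ x, x ≠ 0 → Δ u x = -(‖x‖ ^ A * v x ^ p)) ∧
      (∀ x, x ≠ 0 → Δ v x = -(‖x‖ ^ B * u x ^ q)) := by
  by_cases hcase : p * q ≤ 1 ∨ A ≤ -2 ∨ B ≤ -2
  · rintro ⟨u, v, huc, hvc, hu, hv, hup, hvp, equ, eqv⟩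
    exact SoupletAB.no_solution_trivial_weights hn hp hq hcase huc hvc hu hv hup hvp equ eqv
  obtain ⟨hsub, h⟩ : _ ∧ _ := ((h.resolve_left fun h => hcase (Or.inl h)).resolve_left
    fun h => hcase (Or.inr (Or.inl h))).resolve_left fun h => hcase (Or.inr (Or.inr h))
  push Not at hcase
  obtain ⟨hpq, hA, hB⟩ := hcase
  rcases h with h | h | ⟨ha, hb⟩ | ⟨h3, hLE⟩
  · exact SoupletAB.no_solution_weights hn hp hq hsub (Or.inl h)
  · exact SoupletAB.no_solution_weights hn hp hq hsub (by tauto)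
  · rcases le_or_gt n 2 with h2 | h2
    · exact SoupletAB.no_solution_weights hn hp hq hsub (Or.inl (by omega))
    · exact Spheres.no_solution_of_half h2 hp hq hpq ha hb
  · rintro ⟨u, v, huc, hvc, hu, hv, hup, hvp, equ, eqv⟩
    exact no_solution_of_sup_bound h3 hA hB hp hq hpq hsub (exists_sup_bound hp hq hpq hLE)
      ⟨u, v, ⟨huc, hvc, hu, hv, hup, hvp, equ, eqv⟩⟩

end Vale.Agent.P100.Weighted
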