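import Mathlib
import Vale.Agent.P100.Weighted.BlowUp
import Vale.Agent.P100.Weighted.FromBound
import Vale.Agent.P100.SoupletAB.Cases
import Vale.Agent.P100.Calib.ConeFinalEvery
import Vale.Agent.P100.Calib.SlabStripEndSignsI
import Vale.Agent.P100.Calib.SlabStripEndCertsC
import Vale.Agent.P100.Calib.SlabStripEndSignsD
import Vale.Agent.P100.Calib.SlabStripEndIZ7
import Vale.Agent.P100.Calib.SlabStripEndCSigns
import Vale.Agent.P100.Calib.SlabStripEndSevSigns

/-!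
# The weighted system when the exponents are subcritical without weights

With the Lane–Emden theorem in every dimension: no positive solution of the weighted system for
subcritical parameters whose exponents are subcritical without weights, in particular for all
nonpositive weights.
-/

open Laplacian

namespace Vale.Agent.P100.Weighted

variable {n : ℕ} {A B p q : ℝ}

/-- The Lane–Emden theorem in every dimension. -/
theorem lane_emden (hn : 3 ≤ n) (hp : 0 < p) (hq : 0 < q)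
    (hsub : ((n : ℝ) - 2) / n < 1 / (p + 1) + 1 / (q + 1)) :
    ¬ ∃ u v : EuclideanSpace ℝ (Fin n) → ℝ,
      Continuous u ∧ Continuous v ∧ ContDiffOn ℝ 2 u {0}ᶜ ∧ ContDiffOn ℝ 2 v {0}ᶜ ∧
      (∀ x, 0 < u x) ∧ (∀ x, 0 < v x) ∧ (∀ x, x ≠ 0 → Δ u x = -(v x) ^ p) ∧
      (∀ x, x ≠ 0 → Δ v x = -(u x) ^ q) :=
  Calib.Band.lane_emden_every_of_certs
    (Calib.StripEnd.certsIZ 20) (Calib.StripEnd.certsC 20) (Calib.StripEnd.certsD 20)
    Calib.StripEndD.certsIZ7 Calib.StripEndD.certsC7 Calib.StripEndD.certsD7 hn hp hq hsub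

/-- Nonpositive weights: weighted subcriticality gives the unweighted one. -/
theorem unweighted_of_nonpos (hn : 3 ≤ n) (hA : A ≤ 0) (hB : B ≤ 0) (hp : 0 < p) (hq : 0 < q)
    (hsub : (n : ℝ) - 2 < ((n : ℝ) + A) / (p + 1) + ((n : ℝ) + B) / (q + 1)) :
    ((n : ℝ) - 2) / n < 1 / (p + 1) + 1 / (q + 1) := by
  have hn' : (0 : ℝ) < n := by
    have : (3 : ℝ) ≤ n := by exact_mod_cast hn
    linarith
  have h1 : ((n : ℝ) + A) / (p + 1) ≤ n / (p + 1) :=
    div_le_div_of_nonneg_right (by linarith) (by linarith)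
  have h2 : ((n : ℝ) + B) / (q + 1) ≤ n / (q + 1) :=
    div_le_div_of_nonneg_right (by linarith) (by linarith)
  rw [div_lt_iff₀ hn', add_mul, div_mul_eq_mul_div, div_mul_eq_mul_div, one_mul]
  linarith

/-- Any dimension, any weights, exponents subcritical without weights. -/
theorem no_solution_unweighted_sub (hn : 3 ≤ n) (hp : 0 < p) (hq : 0 < q)
    (hsub : (n : ℝ) - 2 < ((n : ℝ) + A) / (p + 1) + ((n : ℝ) + B) / (q + 1))
    (hLE : ((n : ℝ) - 2) / n < 1 / (p + 1) + 1 / (q + 1)) :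
    ¬ ∃ u v : EuclideanSpace ℝ (Fin n) → ℝ,
      Continuous u ∧ Continuous v ∧ ContDiffOn ℝ 2 u {0}ᶜ ∧ ContDiffOn ℝ 2 v {0}ᶜ ∧
      (∀ x, 0 < u x) ∧ (∀ x, 0 < v x) ∧ (∀ x, x ≠ 0 → Δ u x = -(‖x‖ ^ A * v x ^ p)) ∧
      (∀ x, x ≠ 0 → Δ v x = -(‖x‖ ^ B * u x ^ q)) := by
  rintro ⟨u, v, huc, hvc, hu, hv, hup, hvp, equ, eqv⟩
  have hn2 : 2 ≤ n := by omega
  by_cases hcase : p * q ≤ 1 ∨ A ≤ -2 ∨ B ≤ -2
  · exact SoupletAB.no_solution_trivial_weights hn2 hp hq hcase huc hvc hu hv hup hvp equ eqv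
  push Not at hcase
  obtain ⟨hpq, hA, hB⟩ := hcase
  exact no_solution_of_sup_bound hn hA hB hp hq hpq hsub
    (exists_sup_bound hp hq hpq (lane_emden hn hp hq hLE))
    ⟨u, v, ⟨huc, hvc, hu, hv, hup, hvp, equ, eqv⟩⟩

end Vale.Agent.P100.Weighted
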