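import Vale.Agent.P100.Super

/-!
Comparison with radial harmonic functions on annuli and exteriors of balls, and the interior
gradient bound of a function with bounded values and bounded Laplacian.
-/

open InnerProductSpace Laplacian Filter Topology Set Metric

namespace Vale.Agent.P100.Weighted.Spheres

variable {E : Type*} [NormedAddCommGroup E] [InnerProductSpace ℝ E] [FiniteDimensional ℝ E]

/-- The radial harmonic function `‖y‖ ^ (2 - n)`. -/
noncomputable def green (y : E) : ℝ := (‖y‖ ^ 2) ^ (-(((Module.finrank ℝ E : ℝ) - 2) / 2))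

omit [FiniteDimensional ℝ E] in
theorem contDiffAt_green {y : E} (hy : y ≠ 0) : ContDiffAt ℝ 2 (green : E → ℝ) y :=
  (contDiffAt_id.norm_sq ℝ).rpow_const_of_ne (by simpa using hy)

theorem laplacian_green {y : E} (hy : y ≠ 0) : Δ (green : E → ℝ) y = 0 := by
  unfold green
  rw [Super.lap_rpow hy]
  ring

/-- Comparison with `α + β ‖y‖ ^ (2 - n)` on an annulus. -/
theorem ge_radial {f : E → ℝ} {R T α β : ℝ} (hR : 0 < R)
    (hf : ∀ y : E, R ≤ ‖y‖ → ‖y‖ ≤ T → ContDiffAt ℝ 2 f y)
    (hlap : ∀ y : E, R < ‖y‖ → ‖y‖ < T → Δ f y < 0)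
    (hin : ∀ y : E, ‖y‖ = R → α + β * green y ≤ f y)
    (hout : ∀ y : E, ‖y‖ = T → α + β * green y ≤ f y) :
    ∀ y : E, R ≤ ‖y‖ → ‖y‖ ≤ T → α + β * green y ≤ f y := by
  intro y h1 h2
  have hne : ∀ z : E, R ≤ ‖z‖ → z ≠ 0 := fun z hz h => by
    rw [h, norm_zero] at hz; exact absurd hR (not_lt.2 hz)
  have hK : IsCompact (closedBall (0 : E) T ∩ {z : E | R ≤ ‖z‖}) :=
    (isCompact_closedBall _ _).inter_right (isClosed_le continuous_const continuous_norm)
  have hcd : ∀ z : E, R ≤ ‖z‖ → ‖z‖ ≤ T →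
      ContDiffAt ℝ 2 (fun z => f z + ((-β) • green z + (-α))) z := fun z a b =>
    (hf z a b).add (((contDiffAt_green (hne z a)).const_smul (-β)).add contDiffAt_const)
  have key := Super.min_principle (U := ball (0 : E) T ∩ {z : E | R < ‖z‖}) hK
    (isOpen_ball.inter (isOpen_lt continuous_const continuous_norm))
    (inter_subset_inter ball_subset_closedBall fun z (hz : R < ‖z‖) => hz.le)
    (f := fun z => f z + ((-β) • green z + (-α))) ?_ ?_ ?_ (m := 0) ?_ y ⟨by simpa using h2, h1⟩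
  · simp only [smul_eq_mul] at key; linarith
  · intro z hz
    exact (hcd z hz.2 (by simpa using hz.1)).continuousAt.continuousWithinAt
  · intro z hz
    exact hcd z (le_of_lt hz.2) (le_of_lt (by simpa using hz.1))
  · intro z hz
    have a : R ≤ ‖z‖ := le_of_lt hz.2
    have b : ‖z‖ < T := by simpa using hz.1
    have hg : ContDiffAt ℝ 2 (fun z : E => (-β) • green z) z :=
      (contDiffAt_green (hne z a)).const_smul (-β)
    have h3 : Δ (fun z : E => (-β) • green z + (-α)) z = 0 := by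
      rw [show Δ (fun z : E => (-β) • green z + (-α)) z = _ from
        hg.laplacian_add contDiffAt_const]
      rw [show Δ (fun z : E => (-β) • green z) z = _ from
        laplacian_smul (-β) (contDiffAt_green (hne z a)), laplacian_green (hne z a),
        Super.lap_eq_sum contDiffAt_const (stdOrthonormalBasis ℝ E)]
      simp
    rw [show Δ (fun z => f z + ((-β) • green z + (-α))) z = _ from
      (hf z a b.le).laplacian_add (hg.add contDiffAt_const), h3, add_zero]
    exact hlap z hz.2 b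
  · intro z hz hzU
    have b : ‖z‖ ≤ T := by simpa using hz.1
    simp only [smul_eq_mul]
    by_cases hzT : ‖z‖ < T
    · have : ‖z‖ = R := le_antisymm (not_lt.1 fun h => hzU ⟨by simpa using hzT, h⟩) hz.2
      linarith [hin z this]
    · linarith [hout z (le_antisymm b (not_lt.1 hzT))]

/-- A nonnegative superharmonic function dominates `‖y‖ ^ (2 - n)` outside a ball. -/
theorem ge_green {f : E → ℝ} {R β : ℝ} (hn : 3 ≤ Module.finrank ℝ E) (hR : 0 < R) (hβ : 0 ≤ β)
    (hf : ∀ y : E, R ≤ ‖y‖ → ContDiffAt ℝ 2 f y) (hlap : ∀ y : E, R < ‖y‖ → Δ f y < 0)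
    (hpos : ∀ y : E, R ≤ ‖y‖ → 0 ≤ f y) (hin : ∀ y : E, ‖y‖ = R → β * green y ≤ f y)
    {y : E} (hy : R ≤ ‖y‖) : β * green y ≤ f y := by
  set e : ℝ := -(((Module.finrank ℝ E : ℝ) - 2) / 2) with he
  have hn' : (3 : ℝ) ≤ Module.finrank ℝ E := by exact_mod_cast hn
  have key : ∀ᶠ T : ℝ in atTop, β * green y ≤ f y + β * (T ^ 2) ^ e := by
    filter_upwards [eventually_ge_atTop ‖y‖] with T hT
    have := ge_radial (α := -(β * (T ^ 2) ^ e)) (β := β) hR (fun z a _ => hf z a)
      (fun z a _ => hlap z a) (fun z hz => by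
        have : 0 ≤ β * (T ^ 2) ^ e := by positivity
        linarith [hin z hz]) (fun z hz => by
        have h0 : green z = (T ^ 2) ^ e := by rw [green, hz]
        rw [h0]; linarith [hpos z (by linarith)]) y hy hT
    linarith
  have hlim : Tendsto (fun T : ℝ => f y + β * (T ^ 2) ^ e) atTop (𝓝 (f y + β * 0)) := by
    refine (((?_ : Tendsto (fun T : ℝ => (T ^ 2) ^ e) atTop (𝓝 0))).const_mul β).const_add _
    exact (tendsto_rpow_neg_atTop (by linarith)).comp (tendsto_pow_atTop two_ne_zero)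
  rw [mul_zero, add_zero] at hlim
  exact ge_of_tendsto hlim key

/-- The Laplacian commutes with affine isometries. -/
theorem laplacian_comp_isometry {u : E → ℝ} (x0 : E) (R : E ≃ₗᵢ[ℝ] E) {x : E}
    (hu : ContDiffAt ℝ 2 u (x0 + R x)) : Δ (fun z => u (x0 + R z)) x = Δ u (x0 + R x) := by
  set b := stdOrthonormalBasis ℝ E
  have hc : ContDiffAt ℝ 2 (fun z => u (x0 + R z)) x :=
    ContDiffAt.comp (f := fun z : E => x0 + R z) x hu (contDiffAt_const.add
      R.toContinuousLinearEquiv.contDiff.contDiffAt)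
  rw [Super.lap_eq_sum hc b, Super.lap_eq_sum hu (b.map R)]
  simp [map_add, add_assoc]

/-- The interior gradient bound. -/
theorem abs_fderiv_le {u : E → ℝ} {x0 : E} {d M N : ℝ} (hd : 0 < d) (hN : 0 < N)
    (hu : ∀ z ∈ closedBall x0 (2 * d), ContDiffAt ℝ 2 u z)
    (hM : ∀ z ∈ closedBall x0 (2 * d), |u z| ≤ M)
    (hL : ∀ z ∈ closedBall x0 (2 * d), |Δ u z| ≤ N) {e : E} (he : ‖e‖ = 1) :
    fderiv ℝ u x0 e ≤ (Module.finrank ℝ E : ℝ) * M / d + N * d := by
  have hM0 : 0 ≤ M := (abs_nonneg _).trans (hM x0 (by simp; linarith))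
  set n : ℝ := (Module.finrank ℝ E : ℝ) with hn
  set R := Submodule.reflection (ℝ ∙ e)ᗮ with hR
  set τ : E → ℝ := fun x => inner ℝ e x with hτ
  have hRx : ∀ x : E, R x = x - (2 * τ x) • e := fun x => by
    rw [hR, Submodule.reflection_orthogonal_apply, Submodule.reflection_singleton_apply, he]
    simp only [RCLike.ofReal_real_eq_id, id_eq, one_pow, div_one, neg_sub, hτ,
      ← Nat.cast_smul_eq_nsmul ℝ, smul_smul]
    norm_num
  have hRn : ∀ x : E, ‖R x‖ = ‖x‖ := R.norm_map
  have hball : ∀ x : E, ‖x‖ ≤ 2 * d → x0 + x ∈ closedBall x0 (2 * d) := fun x hx => by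
    simpa using hx
  -- the odd part and the barrier
  set ψ : E → ℝ := fun x =>
    M / d ^ 2 * (‖x‖ ^ 2 + (n * d * τ x - n * τ x ^ 2)) + N * (τ x * d - τ x ^ 2) with hψ
  set g : E → ℝ := fun x => ψ x + ((1 / 2 : ℝ) * u (x0 + R x) + (-(1 / 2 : ℝ)) * u (x0 + x))
    with hg
  have hτd : ∀ x w : E, ∀ t : ℝ, τ (x + t • w) = τ x + t * τ w := fun x w t => by
    simp [hτ, inner_add_right, inner_smul_right]
  have hψd : ∀ x : E, ContDiffAt ℝ 2 ψ x := fun x => by
    have h1 : ContDiff ℝ 2 τ := contDiff_const.inner ℝ contDiff_id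
    have h2 : ContDiff ℝ 2 (fun x : E => ‖x‖ ^ 2) := contDiff_id.norm_sq ℝ
    exact (by fun_prop : ContDiff ℝ 2 ψ).contDiffAt
  set b := stdOrthonormalBasis ℝ E
  have hsum : ∑ i, τ (b i) ^ 2 = 1 := by
    have : ∑ i, τ (b i) ^ 2 = ‖e‖ ^ 2 := by
      rw [← b.sum_sq_norm_inner_left e]
      exact Finset.sum_congr rfl fun i _ => by rw [Real.norm_eq_abs, sq_abs]
    rw [this, he, one_pow]
  have hψl : ∀ x : E, Δ ψ x = -(2 * N) := fun x => by
    rw [Super.lap_eq_sum (hψd x) b]
    have hi : ∀ w : E, deriv (deriv (fun t : ℝ => ψ (x + t • w))) 0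
        = M / d ^ 2 * (2 * ‖w‖ ^ 2 - 2 * n * τ w ^ 2) + N * (-(2 * τ w ^ 2)) := fun w => by
      set c1 := M / d ^ 2 * (2 * inner ℝ x w + n * d * τ w - 2 * n * τ x * τ w)
        + N * (τ w * d - 2 * τ x * τ w) with hc1
      set c2 := M / d ^ 2 * (‖w‖ ^ 2 - n * τ w ^ 2) + N * (-(τ w ^ 2)) with hc2
      have e1 : (fun t : ℝ => ψ (x + t • w)) = fun t => ψ x + c1 * t + c2 * t ^ 2 := by
        funext t
        simp only [hψ, hτd, norm_add_sq_real, inner_smul_right, norm_smul, Real.norm_eq_abs,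
          mul_pow, sq_abs, hc1, hc2]
        ring
      have e2 : deriv (fun t : ℝ => ψ x + c1 * t + c2 * t ^ 2) = fun t => c1 + 2 * c2 * t := by
        funext t
        exact ((((hasDerivAt_id t).const_mul c1).const_add (ψ x)).add
          ((hasDerivAt_pow 2 t).const_mul c2)).congr_deriv (by simp; ring) |>.deriv
      have e3 : deriv (fun t : ℝ => c1 + 2 * c2 * t) 0 = 2 * c2 :=
        (((hasDerivAt_id (0 : ℝ)).const_mul (2 * c2)).const_add c1).congr_deriv (by simp) |>.deriv
      rw [e1, e2, e3, hc2]; ring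
    rw [Finset.sum_congr rfl fun i _ => hi (b i)]
    simp only [← Finset.mul_sum, Finset.sum_add_distrib, Finset.sum_sub_distrib,
      Finset.sum_neg_distrib, hsum]
    simp [b.orthonormal.norm_eq_one, hn]
    ring
  set K : Set E := {x | 0 ≤ τ x ∧ τ x ≤ d ∧ ‖x‖ ^ 2 - τ x ^ 2 ≤ d ^ 2} with hKdef
  have hτc : Continuous τ := continuous_const.inner continuous_id
  have hKb : ∀ x ∈ K, ‖x‖ ≤ 2 * d := fun x hx => by
    nlinarith [hx.1, hx.2.1, hx.2.2, norm_nonneg x]
  have hK : IsCompact K := by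
    refine (isCompact_closedBall (0 : E) (2 * d)).of_isClosed_subset ?_ fun x hx =>
      by simpa using hKb x hx
    exact (isClosed_le continuous_const hτc).inter ((isClosed_le hτc continuous_const).inter
      (isClosed_le ((continuous_norm.pow 2).sub (hτc.pow 2)) continuous_const))
  set U : Set E := {x | 0 < τ x ∧ τ x < d ∧ ‖x‖ ^ 2 - τ x ^ 2 < d ^ 2} with hUdef
  have hU : IsOpen U := (isOpen_lt continuous_const hτc).inter ((isOpen_lt hτc continuous_const).inter
      (isOpen_lt ((continuous_norm.pow 2).sub (hτc.pow 2)) continuous_const))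
  have hUK : U ⊆ K := fun x hx => ⟨hx.1.le, hx.2.1.le, hx.2.2.le⟩
  have h1 : ∀ x : E, ‖x‖ ≤ 2 * d → ContDiffAt ℝ 2 (fun x => u (x0 + x)) x := fun x hx =>
    ContDiffAt.comp (f := fun z : E => x0 + z) x (hu _ (hball x hx))
      (contDiffAt_const.add contDiffAt_id)
  have h2 : ∀ x : E, ‖x‖ ≤ 2 * d → ContDiffAt ℝ 2 (fun x => u (x0 + R x)) x := fun x hx =>
    ContDiffAt.comp (f := fun z : E => x0 + R z) x (hu _ (hball _ (by rw [hRn]; exact hx)))
      (contDiffAt_const.add R.toContinuousLinearEquiv.contDiff.contDiffAt)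
  have hgd : ∀ x : E, ‖x‖ ≤ 2 * d → ContDiffAt ℝ 2 g x := fun x hx =>
    (hψd x).add (((h2 x hx).const_smul (1 / 2 : ℝ)).add ((h1 x hx).const_smul (-(1 / 2 : ℝ))))
  have key := Super.min_principle hK hU hUK (f := g)
    (fun x hx => (hgd x (hKb x hx)).continuousAt.continuousWithinAt)
    (fun x hx => hgd x (hKb x (hUK hx))) ?_ (m := 0) ?_
  · -- differentiate along `e`
    have hτe : τ e = 1 := by simp [hτ, he]
    have hline : ∀ s ∈ Icc (0 : ℝ) d, (u (x0 + s • e) - u (x0 + (-s) • e)) / 2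
        ≤ s * (n * M / d + N * d) := by
      intro s hs
      have hts : τ (s • e) = s := by simp [hτ, inner_smul_right, he]
      have hn2 : ‖s • e‖ ^ 2 = s ^ 2 := by rw [norm_smul, he, mul_one, Real.norm_eq_abs, sq_abs]
      have h := key (s • e) ⟨by rw [hts]; exact hs.1, by rw [hts]; exact hs.2,
        by rw [hts, hn2]; nlinarith⟩
      have hr : R (s • e) = (-s) • e := by
        rw [hRx, hts, sub_eq_add_neg, ← neg_smul, ← add_smul]; congr 1; ring
      simp only [hg, hψ, hts, hn2, hr] at h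
      have e4 : M / d ^ 2 * (s ^ 2 + (n * d * s - n * s ^ 2))
          = s * (n * M / d) - M / d ^ 2 * ((n - 1) * s ^ 2) := by field_simp; ring
      have hn1 : 1 ≤ n := by
        have hne : e ≠ 0 := fun h0 => by simp [h0] at he
        have : Nontrivial E := ⟨⟨e, 0, hne⟩⟩
        rw [hn]; exact_mod_cast Module.finrank_pos (R := ℝ) (M := E)
      have h5 : 0 ≤ M / d ^ 2 * ((n - 1) * s ^ 2) := by
        have : 0 ≤ n - 1 := by linarith
        positivity
      nlinarith [mul_nonneg hN.le (sq_nonneg s)]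
    have hdu : HasFDerivAt u (fderiv ℝ u x0) x0 :=
      ((hu x0 (by simp; linarith)).differentiableAt (by simp)).hasFDerivAt
    have hp : HasDerivAt (fun s : ℝ => x0 + s • e) e 0 := by
      simpa using ((hasDerivAt_id (0 : ℝ)).smul_const e).const_add x0
    have hq : HasDerivAt (fun s : ℝ => x0 + (-s) • e) (-e) 0 := by
      simpa using (((hasDerivAt_id (0 : ℝ)).neg).smul_const e).const_add x0
    have hD : HasDerivAt (fun s : ℝ => (u (x0 + s • e) - u (x0 + (-s) • e)) / 2
        - s * (n * M / d + N * d)) (fderiv ℝ u x0 e - (n * M / d + N * d)) 0 :=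
      ((((hdu.comp_hasDerivAt_of_eq 0 hp (by simp)).sub
        (hdu.comp_hasDerivAt_of_eq 0 hq (by simp))).div_const 2).sub
          ((hasDerivAt_id (0 : ℝ)).mul_const _)).congr_deriv (by simp)
    have hle : fderiv ℝ u x0 e - (n * M / d + N * d) ≤ 0 := by
      refine le_of_tendsto (hD.tendsto_slope_zero_right) ?_
      filter_upwards [self_mem_nhdsWithin, nhdsWithin_le_nhds (Iio_mem_nhds hd)] with s hs hs'
      have hs0 : 0 < s := hs
      simp only [zero_add, neg_zero, zero_smul, add_zero, sub_self, zero_div, zero_mul, sub_zero,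
        smul_eq_mul]
      exact mul_nonpos_of_nonneg_of_nonpos (inv_nonneg.2 hs0.le)
        (by linarith [hline s ⟨hs0.le, le_of_lt hs'⟩])
    linarith
  · intro x hx
    have hxd := hKb x (hUK hx)
    have e5 : Δ g x = Δ ψ x + ((1 / 2 : ℝ) • Δ (fun x => u (x0 + R x)) x
        + (-(1 / 2 : ℝ)) • Δ (fun x => u (x0 + x)) x) := by
      rw [← laplacian_smul _ (h2 x hxd), ← laplacian_smul _ (h1 x hxd)]
      exact ((hψd x).laplacian_add
        (((h2 x hxd).const_smul (1 / 2 : ℝ)).add ((h1 x hxd).const_smul (-(1 / 2 : ℝ))))).trans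
        (congrArg (Δ ψ x + ·) (((h2 x hxd).const_smul (1 / 2 : ℝ)).laplacian_add
          ((h1 x hxd).const_smul (-(1 / 2 : ℝ)))))
    have a1 := hball x hxd
    have a2 := hball (R x) (by rw [hRn]; exact hxd)
    rw [e5, hψl, laplacian_comp_isometry x0 R (hu _ a2),
      show Δ (fun x => u (x0 + x)) x = Δ u (x0 + x) from
        laplacian_comp_isometry x0 (LinearIsometryEquiv.refl ℝ E) (hu _ a1), smul_eq_mul,
      smul_eq_mul]
    linarith [abs_le.1 (hL _ a1), abs_le.1 (hL _ a2)]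
  · intro x hx hxU
    have a1 := abs_le.1 (hM _ (hball x (hKb x hx)))
    have a2 := abs_le.1 (hM _ (hball (R x) (by rw [hRn]; exact hKb x hx)))
    have hn0 : 0 ≤ n := Nat.cast_nonneg _
    by_cases h0 : τ x = 0
    · have : R x = x := by rw [hRx, h0]; simp
      simp only [hg, hψ, h0, this]
      have : 0 ≤ M / d ^ 2 * ‖x‖ ^ 2 := by positivity
      linarith
    have hp : 0 < τ x := lt_of_le_of_ne hx.1 (Ne.symm h0)
    have h3 : 0 ≤ N * (τ x * d - τ x ^ 2) := mul_nonneg hN.le (by nlinarith [hx.2.1])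
    have h4 : d ^ 2 ≤ ‖x‖ ^ 2 + (n * d * τ x - n * τ x ^ 2) := by
      by_cases h1' : τ x = d
      · have h9 := abs_real_inner_le_norm e x
        rw [he, one_mul, abs_of_nonneg hx.1] at h9
        rw [h1'] at h9 ⊢
        nlinarith [pow_le_pow_left₀ hd.le h9 2]
      · have : d ^ 2 ≤ ‖x‖ ^ 2 - τ x ^ 2 := not_lt.1 fun h =>
          hxU ⟨hp, lt_of_le_of_ne hx.2.1 h1', h⟩
        nlinarith [mul_nonneg hn0 (mul_nonneg hp.le (sub_nonneg.2 hx.2.1)), sq_nonneg (τ x)]
    have h6 : M ≤ M / d ^ 2 * (‖x‖ ^ 2 + (n * d * τ x - n * τ x ^ 2)) := by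
      calc M = M / d ^ 2 * d ^ 2 := by field_simp
        _ ≤ _ := mul_le_mul_of_nonneg_left h4 (by positivity)
    simp only [hg, hψ]
    linarith

end Vale.Agent.P100.Weighted.Spheres
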