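import Vale.Agent.P100.Super
import Vale.Agent.P100.Puncture

/-!
The sphere transform `(l²/‖y‖²) ^ k u ((l²/‖y‖²) y)` and its Laplacian: the Laplacian of `u` at
the reflected point plus a multiple of `k u + Du · x`, which vanishes for the Kelvin exponent.
-/

open InnerProductSpace Laplacian Filter Topology Set Metric

namespace Vale.Agent.P100.Weighted.Spheres

variable {E : Type*} [NormedAddCommGroup E] [InnerProductSpace ℝ E] [FiniteDimensional ℝ E]

/-- The sphere transform with exponent `k`. -/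
noncomputable def kelv (l k : ℝ) (u : E → ℝ) (y : E) : ℝ :=
  (l ^ 2 / ‖y‖ ^ 2) ^ k * u ((l ^ 2 / ‖y‖ ^ 2) • y)

omit [InnerProductSpace ℝ E] [FiniteDimensional ℝ E] in
theorem ratio_pos [InnerProductSpace ℝ E] {l : ℝ} (hl : l ≠ 0) {y : E} (hy : y ≠ 0) :
    0 < l ^ 2 / ‖y‖ ^ 2 := by positivity

omit [FiniteDimensional ℝ E] in
theorem reflect_ne {l : ℝ} (hl : l ≠ 0) {y : E} (hy : y ≠ 0) : (l ^ 2 / ‖y‖ ^ 2) • y ≠ 0 :=
  smul_ne_zero (ratio_pos hl hy).ne' hy

omit [FiniteDimensional ℝ E] in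
theorem norm_reflect {l : ℝ} {y : E} (hy : y ≠ 0) :
    ‖(l ^ 2 / ‖y‖ ^ 2) • y‖ = l ^ 2 / ‖y‖ := by
  rw [norm_smul, Real.norm_of_nonneg (by positivity)]
  field_simp

omit [FiniteDimensional ℝ E] in
theorem contDiffAt_kelv {u : E → ℝ} (hu : ContDiffOn ℝ 2 u {(0 : E)}ᶜ) {l : ℝ} (hl : l ≠ 0)
    (k : ℝ) {y : E} (hy : y ≠ 0) : ContDiffAt ℝ 2 (kelv l k u) y := by
  have hr : ContDiffAt ℝ 2 (fun z : E => l ^ 2 / ‖z‖ ^ 2) y :=
    contDiffAt_const.div (contDiffAt_id.norm_sq ℝ) (by positivity)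
  exact (hr.rpow_const_of_ne (ratio_pos hl hy).ne').mul
    (ContDiffAt.comp (f := fun z : E => (l ^ 2 / ‖z‖ ^ 2) • z) y
      (hu.contDiffAt (isOpen_compl_singleton.mem_nhds (reflect_ne hl hy)))
      (hr.smul contDiffAt_id))

omit [FiniteDimensional ℝ E] in
/-- The second derivative of the transform along a line. -/
theorem second_line {u : E → ℝ} (hu : ContDiffOn ℝ 2 u {(0 : E)}ᶜ) {l : ℝ} (hl : l ≠ 0)
    (k : ℝ) {y : E} (hy : y ≠ 0) (w : E) :
    let s := ‖y‖ ^ 2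
    let F := l ^ 2 / s
    let X := F • y
    let ρ := (2 * inner ℝ y w / s) • y - w
    deriv (deriv (fun t : ℝ => kelv l k u (y + t • w))) 0 =
      F ^ k * (k * (4 * (k + 1) * inner ℝ y w ^ 2 / s ^ 2 - 2 * ‖w‖ ^ 2 / s) * u X
        + 4 * k * inner ℝ y w / s * F * fderiv ℝ u X ρ
        + F * (fderiv ℝ u X ((8 * inner ℝ y w ^ 2 / s ^ 2 - 2 * ‖w‖ ^ 2 / s) • y
            - (4 * inner ℝ y w / s) • w))
        + F ^ 2 * fderiv ℝ (fderiv ℝ u) X ρ ρ) := by
  intro s F X ρ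
  set g : ℝ → ℝ := fun t => ‖y + t • w‖ ^ 2 with hg
  have hgd : ∀ t, HasDerivAt g (2 * inner ℝ y w + 2 * t * ‖w‖ ^ 2) t := by
    intro t
    have e : g = fun t => ‖y‖ ^ 2 + t * (2 * inner ℝ y w) + t ^ 2 * ‖w‖ ^ 2 := by
      funext r
      simp only [hg, norm_add_sq_real, inner_smul_right, norm_smul, Real.norm_eq_abs, mul_pow,
        sq_abs]
      ring
    rw [e]
    exact ((((hasDerivAt_id t).mul_const (2 * inner ℝ y w)).const_add (‖y‖ ^ 2)).add
      ((hasDerivAt_pow 2 t).mul_const (‖w‖ ^ 2))).congr_deriv (by simp)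
  have hg0 : g 0 = s := by simp [hg, s]
  have hs : 0 < s := by positivity
  set D : ℝ → ℝ := fun t => 2 * inner ℝ y w + 2 * t * ‖w‖ ^ 2 with hD
  have hDd : HasDerivAt D (2 * ‖w‖ ^ 2) 0 :=
    ((((hasDerivAt_id (0 : ℝ)).const_mul 2).mul_const (‖w‖ ^ 2)).const_add _).congr_deriv
      (by simp)
  set c : ℝ → E := fun t => (l ^ 2 / g t) • (y + t • w) with hc
  set c' : ℝ → E :=
    fun t => (l ^ 2 / g t) • w + (-(l ^ 2 * D t) / g t ^ 2) • (y + t • w) with hc'
  have hline : ∀ t : ℝ, HasDerivAt (fun t : ℝ => y + t • w) w t := fun t => by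
    simpa using ((hasDerivAt_id t).smul_const w).const_add y
  have hev : ∀ᶠ t in 𝓝 (0 : ℝ), 0 < g t :=
    (hgd 0).continuousAt.eventually (eventually_gt_nhds (hg0 ▸ hs))
  have hcd : ∀ t, 0 < g t → HasDerivAt c (c' t) t := fun t ht =>
    (((hasDerivAt_const t (l ^ 2)).div (hgd t) ht.ne').smul (hline t)).congr_deriv (by
      simp [hc', hD, neg_div])
  have hopen := isOpen_compl_singleton (x := (0 : E))
  have hcne : ∀ t, 0 < g t → c t ≠ 0 := fun t ht => by
    refine smul_ne_zero (by positivity) fun h => ?_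
    simp [hg, h] at ht
  -- first derivative
  have hfirst : deriv (fun t : ℝ => kelv l k u (y + t • w)) =ᶠ[𝓝 0] fun t =>
      -(k * D t / g t) * (l ^ 2 / g t) ^ k * u (c t)
        + (l ^ 2 / g t) ^ k * fderiv ℝ u (c t) (c' t) := by
    filter_upwards [hev] with t ht
    have h1 : HasDerivAt (fun t => (l ^ 2 / g t) ^ k)
        (-(k * D t / g t) * (l ^ 2 / g t) ^ k) t := by
      have := ((hasDerivAt_const t (l ^ 2)).div (hgd t) ht.ne').rpow_const (p := k)
        (Or.inl (by positivity : (0:ℝ) < l ^ 2 / g t).ne')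
      refine this.congr_deriv ?_
      simp only [Pi.div_apply]
      rw [Real.rpow_sub_one (by positivity : (0:ℝ) < l ^ 2 / g t).ne', hD]
      field_simp
      ring
    have h2 : HasDerivAt (fun t => u (c t)) (fderiv ℝ u (c t) (c' t)) t :=
      ((hu.contDiffAt (hopen.mem_nhds (hcne t ht))).differentiableAt
        (by simp)).hasFDerivAt.comp_hasDerivAt t (hcd t ht)
    exact (h1.mul h2).deriv
  have ht0 : 0 < g 0 := hg0 ▸ hs
  have hc0 : c 0 = X := by simp [hc, X, F, hg0]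
  have hc'0 : c' 0 = -F • ρ := by
    simp only [hc', hD, hg0, zero_smul, add_zero, mul_zero, zero_mul, ρ, F]
    rw [neg_smul, smul_sub, smul_smul, neg_sub, sub_eq_add_neg, ← neg_smul]
    congr 2
    field_simp
  have hd1 : HasDerivAt (fun t => (l ^ 2 / g t) ^ k) (-(k * D 0 / s) * F ^ k) 0 := by
    have := ((hasDerivAt_const (0:ℝ) (l ^ 2)).div (hgd 0) ht0.ne').rpow_const (p := k)
      (Or.inl (by positivity : (0:ℝ) < l ^ 2 / g 0).ne')
    refine this.congr_deriv ?_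
    simp only [Pi.div_apply]
    rw [Real.rpow_sub_one (by positivity : (0:ℝ) < l ^ 2 / g 0).ne', hD, hg0]
    simp only [F]
    field_simp
    ring
  have hX : X ≠ 0 := reflect_ne hl hy
  have hd2 : HasDerivAt (fun t => u (c t)) (fderiv ℝ u X (c' 0)) 0 :=
    ((hu.contDiffAt (hopen.mem_nhds hX)).differentiableAt (by simp)).hasFDerivAt.comp_hasDerivAt_of_eq
      0 (hcd 0 ht0) hc0.symm
  have hd3 : HasDerivAt c' ((8 * inner ℝ y w ^ 2 / s ^ 2 - 2 * ‖w‖ ^ 2 / s) • (F • y)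
      - (4 * inner ℝ y w / s) • (F • w)) 0 := by
    have hq : HasDerivAt (fun t => -(l ^ 2 * D t) / g t ^ 2)
        ((-(l ^ 2 * (2 * ‖w‖ ^ 2)) * s ^ 2 + l ^ 2 * D 0 * (2 * s * D 0)) / (s ^ 2) ^ 2) 0 :=
      (((hDd.const_mul (l ^ 2)).neg).div ((hgd 0).pow 2) (pow_ne_zero 2 ht0.ne')).congr_deriv (by
        simp [hD, hg0])
    refine ((((hasDerivAt_const (0:ℝ) (l ^ 2)).div (hgd 0) ht0.ne').smul_const w).add
      (hq.smul (hline 0))).congr_deriv ?_
    simp only [hD, hg0, zero_smul, add_zero, mul_zero, zero_mul, zero_sub, smul_smul, F]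
    match_scalars <;> (field_simp; ring)
  have hD2 : DifferentiableAt ℝ (fderiv ℝ u) X :=
    ((hu.contDiffAt (hopen.mem_nhds hX)).fderiv_right (m := 1) (by norm_num)).differentiableAt
      (by simp)
  have hd4 : HasDerivAt (fun t => fderiv ℝ u (c t) (c' t))
      (fderiv ℝ (fderiv ℝ u) X (c' 0) (c' 0) + fderiv ℝ u X
        ((8 * inner ℝ y w ^ 2 / s ^ 2 - 2 * ‖w‖ ^ 2 / s) • (F • y)
          - (4 * inner ℝ y w / s) • (F • w))) 0 :=
    ((hD2.hasFDerivAt.comp_hasDerivAt_of_eq 0 (hcd 0 ht0) hc0.symm).clm_apply hd3).congr_deriv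
      (by simp [hc0])
  have hd5 : HasDerivAt (fun t => -(k * D t / g t))
      (-((k * (2 * ‖w‖ ^ 2) * s - k * D 0 * D 0) / s ^ 2)) 0 :=
    ((hDd.const_mul k).div (hgd 0) ht0.ne').neg.congr_deriv (by rw [hg0])
  rw [hfirst.deriv_eq]
  refine (((hd5.mul hd1).mul hd2).add (hd1.mul hd4)).deriv.trans ?_
  simp only [hc0, hc'0, hg0, hD, map_smul, map_sub, map_neg, neg_smul, smul_eq_mul,
    ContinuousLinearMap.smul_apply, ContinuousLinearMap.neg_apply, Pi.mul_apply,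
    mul_zero, zero_mul, add_zero]
  simp only [F]
  field_simp
  ring

/-- The Laplacian of the transform. -/
theorem laplacian_kelv {u : E → ℝ} (hu : ContDiffOn ℝ 2 u {(0 : E)}ᶜ) {l : ℝ} (hl : l ≠ 0)
    (k : ℝ) {y : E} (hy : y ≠ 0) :
    Δ (kelv l k u) y = (l ^ 2 / ‖y‖ ^ 2) ^ k *
      (2 * (2 * k + 2 - Module.finrank ℝ E) / ‖y‖ ^ 2 *
          (k * u ((l ^ 2 / ‖y‖ ^ 2) • y) + fderiv ℝ u ((l ^ 2 / ‖y‖ ^ 2) • y)
            ((l ^ 2 / ‖y‖ ^ 2) • y))
        + (l ^ 2 / ‖y‖ ^ 2) ^ 2 * Δ u ((l ^ 2 / ‖y‖ ^ 2) • y)) := by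
  set b := stdOrthonormalBasis ℝ E
  set s := ‖y‖ ^ 2 with hs
  have hs0 : 0 < s := by positivity
  set F := l ^ 2 / s with hF
  set X := F • y with hX
  set H := fun i => fderiv ℝ (fderiv ℝ u) X ((2 * inner ℝ y (b i) / s) • y - b i)
    ((2 * inner ℝ y (b i) / s) • y - b i) with hH
  have e : ∀ i, deriv (deriv (fun t : ℝ => kelv l k u (y + t • b i))) 0
      = F ^ k * (inner ℝ y (b i) ^ 2 * ((4 * k * (k + 1) * u X + 8 * (k + 1) * F * fderiv ℝ u X y)
            / s ^ 2)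
        + (inner ℝ y (b i) * fderiv ℝ u X (b i)) * (-(4 * (k + 1) * F) / s)
        + ‖b i‖ ^ 2 * (-(2 * (k * u X + F * fderiv ℝ u X y)) / s) + F ^ 2 * H i) := fun i => by
    refine (second_line hu hl k hy (b i)).trans ?_
    simp only [map_sub (fderiv ℝ u _), map_smul (fderiv ℝ u _), smul_eq_mul, ← hs, ← hF, ← hX, hH]
    congr 1
    field_simp
    ring
  rw [Super.lap_eq_sum (contDiffAt_kelv hu hl k hy) b, Finset.sum_congr rfl fun i _ => e i,
    Puncture.laplacian_eq_sum_fderiv u X (b.map (Submodule.reflection (ℝ ∙ y)))]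
  have hR : ∀ i, b.map (Submodule.reflection (ℝ ∙ y)) i
      = (2 * inner ℝ y (b i) / s) • y - b i := fun i => by
    rw [OrthonormalBasis.map_apply, Submodule.reflection_singleton_apply]
    simp only [RCLike.ofReal_real_eq_id, id_eq, hs, ← Nat.cast_smul_eq_nsmul ℝ, smul_smul]
    congr 2
    push_cast; ring
  simp only [hR]
  have h1 : ∑ i, inner ℝ y (b i) ^ 2 = s := by
    rw [hs, ← b.sum_sq_norm_inner_left y]
    exact Finset.sum_congr rfl fun i _ => by rw [Real.norm_eq_abs, sq_abs]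
  have h2 : ∑ i, inner ℝ y (b i) * fderiv ℝ u X (b i) = fderiv ℝ u X y := by
    conv_rhs => rw [← b.sum_repr' y, map_sum]
    exact Finset.sum_congr rfl fun i _ => by rw [map_smul, smul_eq_mul, real_inner_comm]
  have h3 : ∑ i, ‖b i‖ ^ 2 = (Module.finrank ℝ E : ℝ) := by
    simp [b.orthonormal.norm_eq_one]
  have hXy : fderiv ℝ u X X = F * fderiv ℝ u X y := by
    conv_lhs => arg 2; rw [hX]
    rw [map_smul, smul_eq_mul]
  simp only [hXy, ← Finset.mul_sum, Finset.sum_add_distrib, ← Finset.sum_mul, h1, h2, h3, hH]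
  field_simp
  ring

end Vale.Agent.P100.Weighted.Spheres
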