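import Vale.Agent.P100.Weighted.SpheresKelvin
import Vale.Agent.P100.Weighted.SpheresBasic

/-!
Moving spheres centred at the origin: the step past a sphere, and the start at small radii.
-/

open InnerProductSpace Laplacian Filter Topology Set Metric

namespace Vale.Agent.P100.Weighted.Spheres

variable {E : Type*} [NormedAddCommGroup E] [InnerProductSpace ℝ E] [FiniteDimensional ℝ E]

/-- The sphere transform lies below `u` outside the sphere of radius `l`. -/
def Good (k : ℝ) (u : E → ℝ) (l : ℝ) : Prop := ∀ y : E, l ≤ ‖y‖ → kelv l k u y ≤ u y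

/-- One equation of the system, with both unknowns positive. -/
structure Eqn (u v : E → ℝ) (w p : ℝ) : Prop where
  cont : Continuous u
  contv : Continuous v
  smooth : ContDiffOn ℝ 2 u {(0 : E)}ᶜ
  pos : ∀ x, 0 < u x
  posv : ∀ x, 0 < v x
  lap : ∀ x, x ≠ 0 → Δ u x = -(‖x‖ ^ w * v x ^ p)

variable {u v : E → ℝ} {w p k k' : ℝ}

theorem Eqn.contDiffAt (h : Eqn u v w p) {x : E} (hx : x ≠ 0) : ContDiffAt ℝ 2 u x :=
  h.smooth.contDiffAt (isOpen_compl_singleton.mem_nhds hx)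

omit [InnerProductSpace ℝ E] [FiniteDimensional ℝ E] in
theorem ne_zero_of_le {r : ℝ} (hr : 0 < r) {x : E} (hx : r ≤ ‖x‖) : x ≠ 0 := fun h => by
  rw [h, norm_zero] at hx; exact absurd hr (not_lt.2 hx)

theorem Eqn.hasDerivAt_ray (h : Eqn u v w p) (k : ℝ) {y : E} {t : ℝ} (ht : 0 < t) (hy : y ≠ 0) :
    HasDerivAt (fun t : ℝ => t ^ k * u (t • y))
      (t ^ (k - 1) * (k * u (t • y) + fderiv ℝ u (t • y) (t • y))) t := by
  have hd : HasDerivAt (fun t : ℝ => u (t • y)) (fderiv ℝ u (t • y) y) t :=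
    ((h.contDiffAt (smul_ne_zero ht.ne' hy)).differentiableAt (by simp)).hasFDerivAt.comp_hasDerivAt
      t (by simpa using (hasDerivAt_id t).smul_const y)
  refine ((Real.hasDerivAt_rpow_const (p := k) (Or.inl ht.ne')).mul hd).congr_deriv ?_
  have e : t ^ (k - 1) * t = t ^ k := by
    rw [Real.rpow_sub_one ht.ne', div_mul_cancel₀ _ ht.ne']
  rw [map_smul, smul_eq_mul, ← e]; ring

/-- Monotonicity of `t ^ k u (t y)` gives the reflected inequality. -/
theorem Eqn.kelv_le_of_mono (h : Eqn u v w p) {l : ℝ} (hl : 0 < l) {y : E} (hy : l ≤ ‖y‖)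
    (hm : ∀ x : E, l ^ 2 / ‖y‖ ≤ ‖x‖ → ‖x‖ ≤ ‖y‖ → 0 ≤ k * u x + fderiv ℝ u x x) :
    kelv l k u y ≤ u y := by
  have hy0 := ne_zero_of_le hl hy
  have hr : 0 < ‖y‖ := norm_pos_iff.2 hy0
  set F := l ^ 2 / ‖y‖ ^ 2 with hF
  have hF0 : 0 < F := by positivity
  have hF1 : F ≤ 1 := (div_le_one (by positivity)).2 (pow_le_pow_left₀ hl.le hy 2)
  have := monotoneOn_of_deriv_nonneg (convex_Icc F 1)
    (f := fun t : ℝ => t ^ k * u (t • y))
    (fun t ht => (h.hasDerivAt_ray k (hF0.trans_le ht.1) hy0).continuousAt.continuousWithinAt)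
    (fun t ht => by
      rw [interior_Icc] at ht
      exact (h.hasDerivAt_ray k (hF0.trans ht.1) hy0).differentiableAt.differentiableWithinAt)
    (fun t ht => by
      rw [interior_Icc] at ht
      have ht0 : 0 < t := hF0.trans ht.1
      rw [(h.hasDerivAt_ray k ht0 hy0).deriv]
      refine mul_nonneg (by positivity) (hm _ ?_ ?_) <;> rw [norm_smul, Real.norm_of_nonneg ht0.le]
      · calc l ^ 2 / ‖y‖ = F * ‖y‖ := by rw [hF]; field_simp
          _ ≤ t * ‖y‖ := mul_le_mul_of_nonneg_right ht.1.le hr.le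
      · exact mul_le_of_le_one_left hr.le ht.2.le)
    (left_mem_Icc.2 hF1) (right_mem_Icc.2 hF1) hF1
  simpa [kelv] using this

/-- A good sphere gives monotonicity on it. -/
theorem Eqn.mono_of_good (h : Eqn u v w p) {x : E} (hx : x ≠ 0) (hg : Good k u ‖x‖) :
    0 ≤ k * u x + fderiv ℝ u x x := by
  set f : ℝ → ℝ := fun t => t ^ k * u (t • x) with hf
  have hd : HasDerivAt f (k * u x + fderiv ℝ u x x) 1 :=
    (h.hasDerivAt_ray k one_pos hx).congr_deriv (by simp)
  have hi : HasDerivAt (fun t => f t⁻¹) (-(k * u x + fderiv ℝ u x x)) 1 :=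
    (hd.comp_of_eq (1 : ℝ) (hasDerivAt_inv one_ne_zero) (by simp)).congr_deriv (by simp)
  have key : 0 ≤ 2 * (k * u x + fderiv ℝ u x x) := by
    refine ge_of_tendsto ((hd.sub hi).congr_deriv
      (show _ = 2 * (k * u x + fderiv ℝ u x x) by ring)).tendsto_slope_zero_right ?_
    filter_upwards [self_mem_nhdsWithin] with s hs
    have hs0 : 0 < s := hs
    set t := 1 + s with ht
    have ht0 : 0 < t := by linarith
    have h1 := hg (t • x) (by
      rw [norm_smul, Real.norm_of_nonneg ht0.le]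
      exact le_mul_of_one_le_left (norm_nonneg x) (by linarith))
    have hxn : ‖x‖ ≠ 0 := norm_ne_zero_iff.2 hx
    have hF : ‖x‖ ^ 2 / ‖t • x‖ ^ 2 = t⁻¹ * t⁻¹ := by
      rw [norm_smul, Real.norm_of_nonneg ht0.le]; field_simp
    rw [kelv, hF, smul_smul, mul_assoc, inv_mul_cancel₀ ht0.ne', mul_one,
      Real.mul_rpow (by positivity) (by positivity)] at h1
    have h2 : f t⁻¹ ≤ f t := by
      have h3 := mul_le_mul_of_nonneg_left h1 (Real.rpow_nonneg ht0.le k)
      have h4 : t ^ k * (t⁻¹) ^ k = 1 := by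
        rw [← Real.mul_rpow ht0.le (by positivity), mul_inv_cancel₀ ht0.ne', Real.one_rpow]
      calc f t⁻¹ = (t ^ k * (t⁻¹) ^ k) * ((t⁻¹) ^ k * u (t⁻¹ • x)) := by rw [h4, one_mul]
        _ = t ^ k * ((t⁻¹) ^ k * (t⁻¹) ^ k * u (t⁻¹ • x)) := by ring
        _ ≤ _ := h3
    simp only [Pi.sub_apply, inv_one, sub_self, sub_zero, smul_eq_mul]
    exact mul_nonneg (inv_nonneg.2 hs0.le) (sub_nonneg.2 h2)
  linarith

/-- The difference is strictly superharmonic outside the sphere. -/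
theorem Eqn.gap_neg (h : Eqn u v w p) (hp : 0 < p) (hk : (Module.finrank ℝ E : ℝ) ≤ 2 * k + 2)
    (hg : 0 < k + 2 + w - p * k') {l : ℝ} (hl : 0 < l) (hv : Good k' v l)
    (hm : ∀ x : E, x ≠ 0 → ‖x‖ ≤ l → 0 ≤ k * u x + fderiv ℝ u x x) {y : E} (hy : l < ‖y‖) :
    Δ (fun z => u z + (-1 : ℝ) • kelv l k u z) y < 0 := by
  have hy0 := ne_zero_of_le hl hy.le
  have hr : 0 < ‖y‖ := norm_pos_iff.2 hy0
  rw [show Δ (fun z => u z + (-1 : ℝ) • kelv l k u z) y = _ from
      (h.contDiffAt hy0).laplacian_add ((contDiffAt_kelv h.smooth hl.ne' k hy0).const_smul (-1 : ℝ)),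
    show Δ (fun z => (-1 : ℝ) • kelv l k u z) y = _ from
      laplacian_smul (-1 : ℝ) (contDiffAt_kelv h.smooth hl.ne' k hy0),
    laplacian_kelv h.smooth hl.ne' k hy0, h.lap y hy0, smul_eq_mul]
  set F := l ^ 2 / ‖y‖ ^ 2 with hF
  set X := F • y with hX
  have hF0 : 0 < F := by positivity
  have hF1 : F < 1 := (div_lt_one (by positivity)).2 (pow_lt_pow_left₀ hy hl.le two_ne_zero)
  have hXn : ‖X‖ = F * ‖y‖ := by rw [hX, norm_smul, Real.norm_of_nonneg hF0.le]
  have hX0 : X ≠ 0 := reflect_ne hl.ne' hy0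
  have hXl : ‖X‖ ≤ l := by
    rw [norm_reflect hy0, div_le_iff₀ hr, sq]
    exact mul_le_mul_of_nonneg_left hy.le hl.le
  rw [h.lap X hX0, hXn]
  have h1 : 0 ≤ 2 * (2 * k + 2 - (Module.finrank ℝ E : ℝ)) / ‖y‖ ^ 2
      * (k * u X + fderiv ℝ u X X) := mul_nonneg (div_nonneg (by linarith) (sq_nonneg _))
        (hm X hX0 hXl)
  have h2 : v X ≤ v y / F ^ k' := by
    rw [le_div_iff₀ (by positivity), mul_comm]; exact hv y hy.le
  have hvy := h.posv y
  have h3 : F ^ k * F ^ 2 * ((F * ‖y‖) ^ w * v X ^ p)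
      ≤ F ^ (k + 2 + w - p * k') * (‖y‖ ^ w * v y ^ p) := by
    refine (mul_le_mul_of_nonneg_left (mul_le_mul_of_nonneg_left
      (Real.rpow_le_rpow (h.posv X).le h2 hp.le) (by positivity)) (by positivity)).trans_eq ?_
    rw [Real.div_rpow hvy.le (by positivity), Real.mul_rpow hF0.le hr.le, ← Real.rpow_mul hF0.le,
      Real.rpow_sub hF0, Real.rpow_add hF0, Real.rpow_add hF0, Real.rpow_two, mul_comm p k']
    field_simp
  have h4 : F ^ (k + 2 + w - p * k') < 1 := Real.rpow_lt_one hF0.le hF1 hg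
  have h5 : 0 < ‖y‖ ^ w * v y ^ p :=
    mul_pos (Real.rpow_pos_of_pos hr w) (Real.rpow_pos_of_pos hvy p)
  have h6 := mul_nonneg (Real.rpow_nonneg hF0.le k) h1
  nlinarith [mul_lt_mul_of_pos_right h4 h5]

omit [FiniteDimensional ℝ E] in
theorem rpow_neg_le_green {k R : ℝ} (hk : (Module.finrank ℝ E : ℝ) ≤ 2 * k + 2) (hR : 0 < R)
    {y : E} (hy : R ≤ ‖y‖) : (‖y‖ ^ 2) ^ (-k) ≤
      (R ^ 2) ^ (-(k - ((Module.finrank ℝ E : ℝ) - 2) / 2)) * green y := by
  have hy0 : 0 < ‖y‖ ^ 2 := pow_pos (hR.trans_le hy) 2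
  rw [show -k = -(k - ((Module.finrank ℝ E : ℝ) - 2) / 2) + -(((Module.finrank ℝ E : ℝ) - 2) / 2) by
    ring, Real.rpow_add hy0]
  exact mul_le_mul_of_nonneg_right (Real.rpow_le_rpow_of_nonpos (by positivity)
    (pow_le_pow_left₀ hR.le hy 2) (by linarith)) (Real.rpow_nonneg (sq_nonneg _) _)

omit [InnerProductSpace ℝ E] [FiniteDimensional ℝ E] in
theorem kelv_eq [InnerProductSpace ℝ E] (l k : ℝ) (u : E → ℝ) (y : E) :
    kelv l k u y = (‖y‖ ^ 2) ^ (-k) * ((l ^ 2) ^ k * u ((l ^ 2) • ((‖y‖ ^ 2)⁻¹ • y))) := by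
  rw [kelv, Real.div_rpow (sq_nonneg _) (sq_nonneg _), Real.rpow_neg (sq_nonneg _), smul_smul,
    div_eq_mul_inv, div_eq_mul_inv]
  ring

/-- Past a good sphere. -/
theorem Eqn.extend (hn : 3 ≤ Module.finrank ℝ E) (h : Eqn u v w p) (hp : 0 < p)
    (hk : (Module.finrank ℝ E : ℝ) ≤ 2 * k + 2) (hg : 0 < k + 2 + w - p * k') {L : ℝ}
    (hL : 0 < L) (hu : ∀ l ∈ Ioc 0 L, Good k u l) (hv : Good k' v L) :
    ∃ δ > 0, ∀ l ∈ Ioc L (L + δ), Good k u l := by
  have : Nontrivial E := Module.nontrivial_of_finrank_pos (R := ℝ) (by omega)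
  have hmono : ∀ x : E, x ≠ 0 → ‖x‖ ≤ L → 0 ≤ k * u x + fderiv ℝ u x x := fun x hx hxL =>
    h.mono_of_good hx (hu _ ⟨norm_pos_iff.2 hx, hxL⟩)
  set W : E → ℝ := fun z => u z + (-1 : ℝ) • kelv L k u z with hW
  have hWd : ∀ y : E, L ≤ ‖y‖ → ContDiffAt ℝ 2 W y := fun y hy =>
    (h.contDiffAt (ne_zero_of_le hL hy)).add
      ((contDiffAt_kelv h.smooth hL.ne' k (ne_zero_of_le hL hy)).const_smul (-1 : ℝ))
  have hW0 : ∀ y : E, L ≤ ‖y‖ → 0 ≤ W y := fun y hy => by
    simp only [hW, smul_eq_mul]; linarith [hu L ⟨hL, le_rfl⟩ y hy]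
  have hWl : ∀ y : E, L < ‖y‖ → Δ W y < 0 := fun y hy => h.gap_neg hp hk hg hL hv hmono hy
  have hWp : ∀ y : E, L < ‖y‖ → 0 < W y := fun y hy => by
    refine lt_of_le_of_ne (hW0 y hy.le) fun h0 => ?_
    have hmin : IsLocalMin W y := by
      filter_upwards [(isOpen_lt continuous_const continuous_norm).mem_nhds hy] with z hz
      rw [← h0]; exact hW0 z (le_of_lt hz)
    exact absurd (Super.lap_nonneg_of_isLocalMin (hWd y hy.le) hmin) (not_le.2 (hWl y hy))
  set e : ℝ := -(((Module.finrank ℝ E : ℝ) - 2) / 2) with he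
  have he0 : e < 0 := by
    have : (3 : ℝ) ≤ Module.finrank ℝ E := by exact_mod_cast hn
    linarith
  have hmin : ∀ R, L < R → ∃ m > 0, ∀ z : E, ‖z‖ = R → m ≤ W z := by
    intro R hR
    obtain ⟨z, hz, hz'⟩ := (isCompact_sphere (0 : E) R).exists_isMinOn
      (NormedSpace.sphere_nonempty.2 (hL.trans hR).le)
      (fun z hz => (hWd z (by simp at hz; linarith)).continuousAt.continuousWithinAt)
    simp only [mem_sphere_zero_iff_norm] at hz
    exact ⟨W z, hWp z (hz ▸ hR), fun y hy => hz' (by simpa using hy)⟩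
  -- strict monotonicity on the sphere
  obtain ⟨m, hm0, hm⟩ := hmin (2 * L) (by linarith)
  have hG : ((2 * L) ^ 2) ^ e < (L ^ 2) ^ e :=
    Real.rpow_lt_rpow_of_neg (by positivity) (by nlinarith) he0
  set β := -(m / ((L ^ 2) ^ e - ((2 * L) ^ 2) ^ e)) with hβ
  have hβ0 : β < 0 := by
    rw [hβ, neg_lt_zero]; exact div_pos hm0 (sub_pos.2 hG)
  have hann : ∀ y : E, L ≤ ‖y‖ → ‖y‖ ≤ 2 * L → -(β * (L ^ 2) ^ e) + β * green y ≤ W y := by
    refine ge_radial hL (fun y a _ => hWd y a) (fun y a _ => hWl y a) (fun y hy => ?_)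
      fun y hy => ?_
    · rw [green, hy, ← he]; linarith [hW0 y hy.ge]
    · rw [green, hy, ← he]
      refine le_trans (le_of_eq ?_) (hm y hy)
      rw [show -(β * (L ^ 2) ^ e) + β * ((2 * L) ^ 2) ^ e
          = m / ((L ^ 2) ^ e - ((2 * L) ^ 2) ^ e) * ((L ^ 2) ^ e - ((2 * L) ^ 2) ^ e) by
        rw [hβ]; ring, div_mul_cancel₀ _ (sub_pos.2 hG).ne']
  have hstrict : ∀ x : E, ‖x‖ = L → 0 < k * u x + fderiv ℝ u x x := by
    intro x hx
    have hx0 := ne_zero_of_le hL hx.ge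
    set f : ℝ → ℝ := fun t => t ^ k * u (t • x) with hf
    have hd : HasDerivAt f (k * u x + fderiv ℝ u x x) 1 :=
      (h.hasDerivAt_ray k one_pos hx0).congr_deriv (by simp)
    have hi : HasDerivAt (fun t => f t⁻¹) (-(k * u x + fderiv ℝ u x x)) 1 :=
      (hd.comp_of_eq (1 : ℝ) (hasDerivAt_inv one_ne_zero) (by simp)).congr_deriv (by simp)
    have hψ : HasDerivAt (fun t : ℝ => t ^ k * (β * (t ^ 2 * L ^ 2) ^ e - β * (L ^ 2) ^ e))
        (β * (2 * e * (L ^ 2) ^ e)) 1 := by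
      have h1 := ((hasDerivAt_pow 2 (1 : ℝ)).mul_const (L ^ 2)).rpow_const (p := e)
        (Or.inl (by positivity))
      refine ((Real.hasDerivAt_rpow_const (p := k) (Or.inl one_ne_zero)).mul
        ((h1.const_mul β).sub_const _)).congr_deriv ?_
      simp only [one_pow, one_mul, Real.one_rpow, sub_self, mul_zero, zero_add, mul_one,
        Nat.cast_ofNat]
      rw [Real.rpow_sub_one (by positivity)]
      field_simp
    have key : 0 ≤ 2 * (k * u x + fderiv ℝ u x x) - β * (2 * e * (L ^ 2) ^ e) := by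
      refine ge_of_tendsto (((hd.sub hi).sub hψ).congr_deriv
        (show _ = 2 * (k * u x + fderiv ℝ u x x) - β * (2 * e * (L ^ 2) ^ e) by
          ring)).tendsto_slope_zero_right ?_
      filter_upwards [self_mem_nhdsWithin, nhdsWithin_le_nhds (Iio_mem_nhds one_pos)] with s hs hs1
      have hs0 : 0 < s := hs
      have hs2 : s < 1 := hs1
      set t := 1 + s with ht
      have ht0 : 0 < t := by linarith
      have hnorm : ‖t • x‖ = t * L := by rw [norm_smul, Real.norm_of_nonneg ht0.le, hx]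
      have h1 := hann (t • x) (by rw [hnorm]; nlinarith) (by rw [hnorm]; nlinarith)
      have hF : L ^ 2 / ‖t • x‖ ^ 2 = t⁻¹ * t⁻¹ := by rw [hnorm]; field_simp
      simp only [hW, green, ← he, kelv, smul_eq_mul] at h1
      rw [hF, smul_smul, mul_assoc t⁻¹, inv_mul_cancel₀ ht0.ne', mul_one,
        Real.mul_rpow (by positivity) (by positivity), hnorm, mul_pow] at h1
      have h4 : t ^ k * (t⁻¹) ^ k = 1 := by
        rw [← Real.mul_rpow ht0.le (by positivity), mul_inv_cancel₀ ht0.ne', Real.one_rpow]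
      have h3 := mul_le_mul_of_nonneg_left h1 (Real.rpow_nonneg ht0.le k)
      have h5 : f t⁻¹ = t ^ k * ((t⁻¹) ^ k * (t⁻¹) ^ k * u (t⁻¹ • x)) :=
        calc f t⁻¹ = (t ^ k * (t⁻¹) ^ k) * ((t⁻¹) ^ k * u (t⁻¹ • x)) := by rw [h4, one_mul]
          _ = _ := by ring
      simp only [Pi.sub_apply, inv_one, sub_self, sub_zero, one_pow, one_mul, mul_zero,
        smul_eq_mul]
      refine mul_nonneg (inv_nonneg.2 hs0.le) ?_
      rw [h5, hf]
      linarith
    have : 0 < β * (2 * e * (L ^ 2) ^ e) :=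
      mul_pos_of_neg_of_neg hβ0 (mul_neg_of_neg_of_pos (by linarith) (by positivity))
    linarith
  -- strict monotonicity on a shell
  have hopen : IsOpen {x : E | x ≠ 0 ∧ 0 < k * u x + fderiv ℝ u x x} := by
    have hc : ContinuousOn (fun x => k * u x + fderiv ℝ u x x) {(0 : E)}ᶜ :=
      (continuousOn_const.mul h.cont.continuousOn).add
        ((h.smooth.continuousOn_fderiv_of_isOpen isOpen_compl_singleton (by norm_num)).clm_apply
          continuousOn_id)
    exact hc.isOpen_inter_preimage isOpen_compl_singleton isOpen_Ioi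
  obtain ⟨δ₀, hδ₀, hth⟩ := (isCompact_sphere (0 : E) L).exists_thickening_subset_open hopen
    fun x hx => by
      simp only [mem_sphere_zero_iff_norm] at hx
      exact ⟨ne_zero_of_le hL hx.ge, hstrict x hx⟩
  set ε := min δ₀ (L / 2) with hε
  have hε0 : 0 < ε := lt_min hδ₀ (by linarith)
  have hshell : ∀ x : E, |‖x‖ - L| < ε → 0 ≤ k * u x + fderiv ℝ u x x := by
    intro x hx
    have hεL : ε ≤ L / 2 := min_le_right _ _
    have hxp : 0 < ‖x‖ := by linarith [(abs_lt.1 hx).1]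
    refine (hth (mem_thickening_iff.2 ⟨(L / ‖x‖) • x, ?_, ?_⟩)).2.le
    · rw [mem_sphere_zero_iff_norm, norm_smul, Real.norm_of_nonneg (by positivity),
        div_mul_cancel₀ _ hxp.ne']
    · rw [dist_eq_norm, show x - (L / ‖x‖) • x = (1 - L / ‖x‖) • x by rw [sub_smul, one_smul],
        norm_smul, Real.norm_eq_abs, show 1 - L / ‖x‖ = (‖x‖ - L) / ‖x‖ by field_simp, abs_div,
        abs_of_pos hxp, div_mul_cancel₀ _ hxp.ne']
      exact hx.trans_le (min_le_left _ _)
  -- the exterior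
  set R := L + ε with hR
  obtain ⟨m', hm'0, hm'⟩ := hmin R (by linarith)
  set c := m' / (R ^ 2) ^ e with hc
  have hR0 : 0 < R := by linarith
  have hc0 : 0 < c := by positivity
  have hext : ∀ y : E, R ≤ ‖y‖ → c * green y ≤ W y := fun y hy =>
    ge_green hn hR0 hc0.le (fun z hz => hWd z (by linarith)) (fun z hz => hWl z (by linarith))
      (fun z hz => hW0 z (by linarith)) (fun z hz => by
        rw [green, hz, ← he, hc, div_mul_cancel₀ _ (by positivity)]; exact hm' z hz) hy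
  set Φ : ℝ × E → ℝ := fun z => (z.1 ^ 2) ^ k * u ((z.1 ^ 2) • z.2) with hΦ
  have hK : IsCompact (Icc L (2 * L) ×ˢ closedBall (0 : E) R⁻¹) :=
    isCompact_Icc.prod (isCompact_closedBall _ _)
  have hΦc : ContinuousOn Φ (Icc L (2 * L) ×ˢ closedBall (0 : E) R⁻¹) := by
    refine ContinuousOn.mul ?_ (h.cont.comp_continuousOn (by fun_prop))
    refine ContinuousOn.rpow_const (by fun_prop) fun z hz => Or.inl ?_
    exact pow_ne_zero 2 (hL.trans_le hz.1.1).ne'
  set C := (R ^ 2) ^ (-(k - ((Module.finrank ℝ E : ℝ) - 2) / 2))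
  have hC : 0 < C := by positivity
  obtain ⟨δ₁, hδ₁, huc⟩ :=
    Metric.uniformContinuousOn_iff.1 (hK.uniformContinuousOn_of_continuous hΦc) (c / C)
      (by positivity)
  refine ⟨min (min L (δ₁ / 2)) (ε / 2), by positivity, fun l hl y hy => ?_⟩
  have hlL : L < l := hl.1
  have hd1 : l ≤ L + min (min L (δ₁ / 2)) (ε / 2) := hl.2
  have hd2 := min_le_left (min L (δ₁ / 2)) (ε / 2)
  have hd3 := min_le_left L (δ₁ / 2)
  have hd4 := min_le_right L (δ₁ / 2)
  have hl0 : 0 < l := hL.trans hlL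
  rcases lt_or_ge ‖y‖ R with hyR | hyR
  · refine h.kelv_le_of_mono hl0 hy fun x h1 h2 => hshell x ?_
    have hyp : 0 < ‖y‖ := hl0.trans_le hy
    rw [abs_lt]
    refine ⟨?_, by linarith⟩
    have h7 : l ^ 2 / R ≤ l ^ 2 / ‖y‖ := div_le_div_of_nonneg_left (sq_nonneg l) hyp hyR.le
    have h8 : L - ε < l ^ 2 / R := by
      rw [lt_div_iff₀ hR0, hR]; nlinarith
    linarith
  · have hyp : 0 < ‖y‖ := hR0.trans_le hyR
    set z := (‖y‖ ^ 2)⁻¹ • y with hz
    have hzb : z ∈ closedBall (0 : E) R⁻¹ := by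
      rw [mem_closedBall_zero_iff, hz, norm_smul, Real.norm_of_nonneg (by positivity)]
      rw [sq, mul_inv, mul_assoc, inv_mul_cancel₀ hyp.ne', mul_one]
      exact inv_anti₀ hR0 hyR
    have hd := huc (l, z) ⟨⟨hlL.le, by linarith⟩, hzb⟩ (L, z) ⟨⟨le_rfl, by linarith⟩, hzb⟩ (by
      rw [Prod.dist_eq, dist_self, Real.dist_eq, abs_of_pos (by linarith)]
      exact max_lt (by linarith) hδ₁)
    rw [Real.dist_eq] at hd
    simp only [hΦ] at hd
    have hd' := (abs_lt.1 hd).2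
    have h1 := rpow_neg_le_green (k := k) hk hR0 hyR
    have h0 : 0 ≤ (‖y‖ ^ 2) ^ (-k) := by positivity
    have h2 := hext y hyR
    simp only [hW, smul_eq_mul] at h2
    rw [kelv_eq] at h2 ⊢
    have h3 := mul_le_mul_of_nonneg_left hd'.le h0
    have h4 := mul_le_mul_of_nonneg_right h1 (div_nonneg hc0.le hC.le)
    rw [mul_comm C, mul_assoc, mul_div_cancel₀ _ hC.ne'] at h4
    linarith

/-- Monotonicity near the origin. -/
theorem Eqn.exists_small (hn : 3 ≤ Module.finrank ℝ E) (h : Eqn u v w p) (hp : 0 < p)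
    (hw : -2 < w) (hk : (Module.finrank ℝ E : ℝ) ≤ 2 * k + 2) :
    ∃ L > 0, ∀ l ∈ Ioc 0 L, Good k u l := by
  have : Nontrivial E := Module.nontrivial_of_finrank_pos (R := ℝ) (by omega)
  have hn' : (3 : ℝ) ≤ Module.finrank ℝ E := by exact_mod_cast hn
  have hk0 : 0 < k := by linarith
  set n : ℝ := (Module.finrank ℝ E : ℝ) with hn0
  set η := k * u 0 / 2 with hη
  have hη0 : 0 < η := by have := h.pos 0; positivity
  set M := min (u 0 / 4) (η / (8 * n)) with hM
  have hM0 : 0 < M := lt_min (by have := h.pos 0; linarith) (by positivity)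
  obtain ⟨Vm, hVm⟩ := (isCompact_closedBall (0 : E) 2).exists_bound_of_continuousOn
    h.contv.continuousOn
  set C := max ((1 / 2 : ℝ) ^ w) ((3 / 2 : ℝ) ^ w) * (max Vm 0 + 1) ^ p with hC
  have hC0 : 0 < C := mul_pos (lt_max_of_lt_left (by positivity)) (by positivity)
  obtain ⟨r₁, hr₁, hcont⟩ := Metric.continuousAt_iff.1 (h.cont.continuousAt (x := 0)) M hM0
  have hlim : Tendsto (fun r : ℝ => C * r ^ (2 + w) / 4) (𝓝 0) (𝓝 0) := by
    have := ((Real.continuous_rpow_const (by linarith : 0 ≤ 2 + w)).const_mul C).div_const (4 : ℝ)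
    simpa [Real.zero_rpow (by linarith : 2 + w ≠ 0)] using this.tendsto 0
  obtain ⟨r₂, hr₂, hsmall⟩ := Metric.eventually_nhds_iff.1 (hlim.eventually (gt_mem_nhds (half_pos hη0)))
  set r₀ := min (min (r₁ / 2) (r₂ / 2)) 1 with hr₀
  have hr00 : 0 < r₀ := by positivity
  have hrr1 : r₀ ≤ r₁ / 2 := (min_le_left _ _).trans (min_le_left _ _)
  have hrr2 : r₀ ≤ r₂ / 2 := (min_le_left _ _).trans (min_le_right _ _)
  have hmono : ∀ x : E, x ≠ 0 → ‖x‖ ≤ r₀ → 0 ≤ k * u x + fderiv ℝ u x x := by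
    intro x hx hxr
    set r := ‖x‖ with hr
    have hrp : 0 < r := norm_pos_iff.2 hx
    have hru : r ≤ 1 := hxr.trans (min_le_right _ _)
    have hball : ∀ z ∈ closedBall x (2 * (r / 4)), r / 2 ≤ ‖z‖ ∧ ‖z‖ ≤ 3 / 2 * r := fun z hz => by
      rw [mem_closedBall, dist_eq_norm] at hz
      have := norm_le_norm_add_norm_sub' x z
      have := norm_le_norm_add_norm_sub' z x
      rw [norm_sub_rev x z] at *
      constructor <;> linarith
    have hne : ∀ z ∈ closedBall x (2 * (r / 4)), z ≠ 0 := fun z hz =>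
      ne_zero_of_le (by linarith) (hball z hz).1
    have hvar : ∀ z : E, ‖z‖ ≤ 3 / 2 * r → |u z - u 0| ≤ M := fun z hz => by
      have := hcont (x := z) (by rw [dist_zero_right]; linarith)
      rw [Real.dist_eq] at this
      exact this.le
    have hLap : ∀ z : E, z ≠ 0 → Δ (fun z => u z + (-u 0)) z = Δ u z := fun z hz => by
      rw [show Δ (fun z => u z + (-u 0)) z = _ from
        (h.contDiffAt hz).laplacian_add contDiffAt_const,
        Super.lap_eq_sum contDiffAt_const (stdOrthonormalBasis ℝ E)]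
      simp
    have hg := abs_fderiv_le (u := fun z => u z + (-u 0)) (x0 := x) (d := r / 4) (M := M)
      (N := C * r ^ w) (by linarith) (by positivity)
      (fun z hz => (h.contDiffAt (hne z hz)).add contDiffAt_const)
      (fun z hz => hvar z (hball z hz).2) (fun z hz => by
        obtain ⟨a, b⟩ := hball z hz
        have hz0 := hne z hz
        have hzp : 0 < ‖z‖ := norm_pos_iff.2 hz0
        rw [hLap z hz0, h.lap z hz0, abs_neg, abs_of_pos (mul_pos (Real.rpow_pos_of_pos hzp w)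
          (Real.rpow_pos_of_pos (h.posv z) p)), hC]
        have hpw : ‖z‖ ^ w ≤ max ((1 / 2 : ℝ) ^ w) ((3 / 2 : ℝ) ^ w) * r ^ w := by
          rw [show ‖z‖ = (‖z‖ / r) * r by field_simp, Real.mul_rpow (by positivity) hrp.le]
          refine mul_le_mul_of_nonneg_right ?_ (by positivity)
          rcases le_total 0 w with hw0 | hw0
          · exact le_max_of_le_right (Real.rpow_le_rpow (by positivity)
              (by rw [div_le_iff₀ hrp]; linarith) hw0)
          · exact le_max_of_le_left (Real.rpow_le_rpow_of_nonpos (by norm_num)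
              (by rw [le_div_iff₀ hrp]; linarith) hw0)
        have hvp : v z ^ p ≤ (max Vm 0 + 1) ^ p := by
          refine Real.rpow_le_rpow (h.posv z).le ?_ hp.le
          have := hVm z (by rw [mem_closedBall_zero_iff]; linarith)
          rw [Real.norm_eq_abs, abs_of_pos (h.posv z)] at this
          linarith [le_max_left Vm 0]
        calc ‖z‖ ^ w * v z ^ p
            ≤ (max ((1 / 2 : ℝ) ^ w) ((3 / 2 : ℝ) ^ w) * r ^ w) * (max Vm 0 + 1) ^ p :=
              mul_le_mul hpw hvp (Real.rpow_nonneg (h.posv z).le p) (by positivity)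
          _ = _ := by ring)
      (e := (-r⁻¹) • x) (by rw [norm_smul, Real.norm_eq_abs, abs_neg, abs_of_pos (by positivity),
        inv_mul_cancel₀ hrp.ne'])
    have hsm : C * r ^ (2 + w) / 4 < η / 2 := hsmall (by
      rw [dist_zero_right, Real.norm_of_nonneg hrp.le]; linarith)
    rw [show (fderiv ℝ (fun z => u z + (-u 0)) x) = fderiv ℝ u x from fderiv_add_const _,
      map_smul, smul_eq_mul, ← hn0] at hg
    have hg2 := mul_le_mul_of_nonneg_left hg hrp.le
    have e1 : r * (-r⁻¹ * fderiv ℝ u x x) = -(fderiv ℝ u x x) := by field_simp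
    have e2 : r * (n * M / (r / 4) + C * r ^ w * (r / 4)) = 4 * n * M + C * r ^ (2 + w) / 4 := by
      rw [Real.rpow_add hrp, Real.rpow_two]; field_simp
    have e3 : 4 * n * M ≤ η / 2 := by
      calc 4 * n * M ≤ 4 * n * (η / (8 * n)) :=
            mul_le_mul_of_nonneg_left (min_le_right _ _) (by positivity)
        _ = η / 2 := by field_simp; ring
    rw [e1, e2] at hg2
    have hux : u 0 / 2 ≤ u x := by
      have := (abs_le.1 (hvar x (by linarith))).1
      linarith [min_le_left (u 0 / 4) (η / (8 * n)), h.pos 0]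
    nlinarith [mul_le_mul_of_nonneg_left hux hk0.le]
  -- far from the origin
  obtain ⟨z0, -, hz0⟩ := (isCompact_sphere (0 : E) r₀).exists_isMinOn
    (NormedSpace.sphere_nonempty.2 hr00.le) h.cont.continuousOn
  set e : ℝ := -((n - 2) / 2) with he
  set β := u z0 / (r₀ ^ 2) ^ e with hβ
  have hβ0 : 0 < β := by have := h.pos z0; positivity
  have hfar : ∀ y : E, r₀ ≤ ‖y‖ → β * green y ≤ u y := fun y hy =>
    ge_green hn hr00 hβ0.le (fun z hz => h.contDiffAt (ne_zero_of_le hr00 hz))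
      (fun z hz => by
        have hz1 := ne_zero_of_le hr00 hz.le
        rw [h.lap z hz1]
        exact neg_neg_of_pos (mul_pos (Real.rpow_pos_of_pos (norm_pos_iff.2 hz1) w)
          (Real.rpow_pos_of_pos (h.posv z) p)))
      (fun z _ => (h.pos z).le) (fun z hz => by
        rw [green, hz, ← hn0, ← he, hβ, div_mul_cancel₀ _ (by positivity)]
        exact hz0 (by simpa using hz)) hy
  set C' := (r₀ ^ 2) ^ (-(k - (n - 2) / 2))
  have hlim2 : Tendsto (fun l : ℝ => (l ^ 2) ^ k * (u 0 + M) * C') (𝓝 0) (𝓝 0) := by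
    have := (((continuous_pow 2).rpow_const (p := k) fun _ => Or.inr hk0.le).mul_const
      (u 0 + M)).mul_const C'
    simpa [Real.zero_rpow hk0.ne'] using this.tendsto (0 : ℝ)
  obtain ⟨r₃, hr₃, hsmall2⟩ := Metric.eventually_nhds_iff.1 (hlim2.eventually (gt_mem_nhds hβ0))
  refine ⟨min r₀ (r₃ / 2), by positivity, fun l hl y hy => ?_⟩
  have hl0 : 0 < l := hl.1
  have hlr : l ≤ r₀ := hl.2.trans (min_le_left _ _)
  have hl3 : l ≤ r₃ / 2 := hl.2.trans (min_le_right _ _)
  rcases le_total ‖y‖ r₀ with hyr | hyr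
  · refine h.kelv_le_of_mono hl0 hy fun x a b => hmono x ?_ (b.trans hyr)
    exact ne_zero_of_le (by have := hl0.trans_le hy; positivity) a
  · refine le_trans ?_ (hfar y hyr)
    rw [kelv_eq]
    have hX : u ((l ^ 2) • ((‖y‖ ^ 2)⁻¹ • y)) ≤ u 0 + M := by
      have hyp : 0 < ‖y‖ := hl0.trans_le hy
      have hn1 : ‖(l ^ 2) • ((‖y‖ ^ 2)⁻¹ • y)‖ ≤ l := by
        rw [smul_smul, ← div_eq_mul_inv, norm_reflect (norm_pos_iff.1 hyp), div_le_iff₀ hyp, sq]
        exact mul_le_mul_of_nonneg_left hy hl0.le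
      have := hcont (x := (l ^ 2) • ((‖y‖ ^ 2)⁻¹ • y)) (by rw [dist_zero_right]; linarith)
      rw [Real.dist_eq] at this
      linarith [(abs_lt.1 this).2]
    have h1 := rpow_neg_le_green (k := k) hk hr00 hyr
    have h2 := hsmall2 (y := l) (by rw [dist_zero_right, Real.norm_of_nonneg hl0.le]; linarith)
    have hgp : 0 ≤ green y := by unfold green; positivity
    have hum : 0 ≤ u 0 + M := by linarith [h.pos 0]
    calc (‖y‖ ^ 2) ^ (-k) * ((l ^ 2) ^ k * u ((l ^ 2) • ((‖y‖ ^ 2)⁻¹ • y)))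
        ≤ (C' * green y) * ((l ^ 2) ^ k * (u 0 + M)) :=
          mul_le_mul h1 (mul_le_mul_of_nonneg_left hX (by positivity))
            (mul_nonneg (by positivity) (h.pos _).le) (mul_nonneg (by positivity) hgp)
      _ = ((l ^ 2) ^ k * (u 0 + M) * C') * green y := by ring
      _ ≤ β * green y := mul_le_mul_of_nonneg_right h2.le hgp

end Vale.Agent.P100.Weighted.Spheres
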